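import Vale.Agent.P262.EB.Phi

/-! # Second order expansion of `E Phi(Y)` for a bounded random variable -/

open MeasureTheory ProbabilityTheory Set Filter Topology

namespace Vale.Agent.P262.EB

noncomputable section

/-- the constant of the expansion -/
def cE (B : ℝ) : ℝ := (3 + B ^ 2 / 2) / phi B

lemma cE_pos (B : ℝ) : 0 < cE B := div_pos (by positivity) (phi_pos B)

variable {Ω : Type*} [MeasurableSpace Ω] {μ : Measure Ω} [IsProbabilityMeasure μ]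

lemma abs_integral_le_of_bound {Y : Ω → ℝ} {B : ℝ} (hB : ∀ ω, |Y ω| ≤ B) :
    |∫ ω, Y ω ∂μ| ≤ B := by
  have h := norm_integral_le_of_norm_le_const (μ := μ) (f := Y) (C := B)
    (Eventually.of_forall fun ω => by simpa using hB ω)
  simpa using h

lemma integrable_of_bound {Y : Ω → ℝ} {B : ℝ} (hY : Measurable Y) (hB : ∀ ω, |Y ω| ≤ B) :
    Integrable Y μ :=
  Integrable.of_bound hY.aestronglyMeasurable B
    (Eventually.of_forall fun ω => by simpa using hB ω)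

/-- `|E Phi(Y) - Phi(c) + c phi(c) v/2| ≤ E|Y-c|^3` -/
lemma exp_taylor {Y : Ω → ℝ} {B : ℝ} (hY : Measurable Y) (hB : ∀ ω, |Y ω| ≤ B) :
    |∫ ω, Phi (Y ω) ∂μ - Phi (∫ ω, Y ω ∂μ)
      + (∫ ω, Y ω ∂μ) * phi (∫ ω, Y ω ∂μ) * (∫ ω, (Y ω - ∫ ω, Y ω ∂μ) ^ 2 ∂μ) / 2|
      ≤ ∫ ω, |Y ω - ∫ ω, Y ω ∂μ| ^ 3 ∂μ := by
  set c := ∫ ω, Y ω ∂μ with hc
  have hcB : |c| ≤ B := abs_integral_le_of_bound hB
  have hYi : Integrable Y μ := integrable_of_bound hY hB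
  have hd : ∀ ω, |Y ω - c| ≤ 2 * B := fun ω => by
    have := abs_sub (Y ω) c
    linarith [hB ω]
  have hB0 : 0 ≤ B := le_trans (abs_nonneg _) hcB
  have h1 : Integrable (fun ω => Y ω - c) μ := integrable_of_bound (hY.sub_const c) hd
  have h2 : Integrable (fun ω => (Y ω - c) ^ 2) μ := by
    refine integrable_of_bound (B := (2 * B) ^ 2) ((hY.sub_const c).pow_const 2) fun ω => ?_
    rw [abs_pow]
    exact pow_le_pow_left₀ (abs_nonneg _) (hd ω) 2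
  have h3 : Integrable (fun ω => |Y ω - c| ^ 3) μ := by
    refine integrable_of_bound (B := (2 * B) ^ 3) ((hY.sub_const c).abs.pow_const 3) fun ω => ?_
    rw [abs_pow, abs_abs]
    exact pow_le_pow_left₀ (abs_nonneg _) (hd ω) 3
  have h0 : Integrable (fun ω => Phi (Y ω)) μ := by
    refine integrable_of_bound (B := 1) (measurable_Phi.comp hY) fun ω => ?_
    rw [abs_of_pos (Phi_pos _)]; exact (Phi_lt_one _).le
  have hz : ∫ ω, (Y ω - c) ∂μ = 0 := by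
    rw [integral_sub hYi (integrable_const c)]
    simp [hc]
  have i1 : Integrable (fun ω => Phi (Y ω) - Phi c) μ := h0.sub (integrable_const _)
  have i2 : Integrable (fun ω => phi c * (Y ω - c)) μ := h1.const_mul _
  have i3 : Integrable (fun ω => Phi (Y ω) - Phi c - phi c * (Y ω - c)) μ := i1.sub i2
  have i4 : Integrable (fun ω => (c * phi c / 2) * (Y ω - c) ^ 2) μ := h2.const_mul _
  have key : ∫ ω, Phi (Y ω) ∂μ - Phi c + c * phi c * (∫ ω, (Y ω - c) ^ 2 ∂μ) / 2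
      = ∫ ω, (Phi (Y ω) - Phi c - phi c * (Y ω - c) + c * phi c * (Y ω - c) ^ 2 / 2) ∂μ := by
    have e1 : ∫ ω, (Phi (Y ω) - Phi c - phi c * (Y ω - c) + c * phi c * (Y ω - c) ^ 2 / 2) ∂μ
        = ∫ ω, (Phi (Y ω) - Phi c - phi c * (Y ω - c)) ∂μ
          + ∫ ω, (c * phi c / 2) * (Y ω - c) ^ 2 ∂μ := by
      rw [← integral_add i3 i4]
      congr 1; ext ω; ring
    have e2 : ∫ ω, (Phi (Y ω) - Phi c - phi c * (Y ω - c)) ∂μ
        = ∫ ω, (Phi (Y ω) - Phi c) ∂μ - ∫ ω, phi c * (Y ω - c) ∂μ := integral_sub i1 i2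
    have e3 : ∫ ω, (Phi (Y ω) - Phi c) ∂μ = ∫ ω, Phi (Y ω) ∂μ - ∫ _ω, Phi c ∂μ :=
      integral_sub h0 (integrable_const _)
    rw [e1, e2, e3, integral_const_mul, integral_const_mul, hz]
    simp; ring
  rw [key, ← Real.norm_eq_abs]
  refine (norm_integral_le_integral_norm _).trans ?_
  refine integral_mono_of_nonneg (Eventually.of_forall fun ω => norm_nonneg _) h3
    (Eventually.of_forall fun ω => ?_)
  exact Phi_taylor2 c (Y ω)

/-- **The expansion.** -/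
theorem exp_bounds {Y : Ω → ℝ} {B τ : ℝ} (hY : Measurable Y) (hB : ∀ ω, |Y ω| ≤ B)
    (hτ : ∫ ω, |Y ω - ∫ ω, Y ω ∂μ| ^ 3 ∂μ ≤ τ)
    (hv : (∫ ω, (Y ω - ∫ ω, Y ω ∂μ) ^ 2 ∂μ) ^ 2 ≤ τ) (hs : cE B ^ 2 * τ ≤ 1) :
    Phi ((∫ ω, Y ω ∂μ) - (∫ ω, Y ω ∂μ) * (∫ ω, (Y ω - ∫ ω, Y ω ∂μ) ^ 2 ∂μ) / 2 - cE B * τ)
        ≤ ∫ ω, Phi (Y ω) ∂μ ∧
    ∫ ω, Phi (Y ω) ∂μ ≤
      Phi ((∫ ω, Y ω ∂μ) - (∫ ω, Y ω ∂μ) * (∫ ω, (Y ω - ∫ ω, Y ω ∂μ) ^ 2 ∂μ) / 2 + cE B * τ) := by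
  have key := exp_taylor (μ := μ) hY hB
  set c := ∫ ω, Y ω ∂μ with hc
  set v := ∫ ω, (Y ω - c) ^ 2 ∂μ with hvdef
  have hcB : |c| ≤ B := abs_integral_le_of_bound hB
  have hB0 : 0 ≤ B := le_trans (abs_nonneg _) hcB
  have hτ0 : 0 ≤ τ := le_trans (sq_nonneg _) hv
  have key2 := key.trans hτ
  have hC := cE_pos B
  have hphiB := phi_pos B
  have hphi : phi B ≤ phi c := phi_anti hcB
  have hCdef : phi B * cE B = 3 + B ^ 2 / 2 := by
    unfold cE; field_simp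
  have hc2 : c ^ 2 ≤ B ^ 2 := by rw [← sq_abs c]; exact pow_le_pow_left₀ (abs_nonneg _) hcB 2
  -- main numerical inequality
  have hnum : ∀ η : ℝ, η ^ 2 ≤ 2 * (c ^ 2 * v ^ 2 / 4 + (cE B * τ) ^ 2) →
      τ + η ^ 2 ≤ phi c * (cE B * τ) := by
    intro η hη
    have e1 : c ^ 2 * v ^ 2 ≤ B ^ 2 * τ := mul_le_mul hc2 hv (sq_nonneg _) (sq_nonneg _)
    have e2 : (cE B * τ) ^ 2 ≤ τ := by
      have : (cE B * τ) ^ 2 = (cE B ^ 2 * τ) * τ := by ring
      rw [this]; nlinarith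
    have e3 : phi B * (cE B * τ) ≤ phi c * (cE B * τ) :=
      mul_le_mul_of_nonneg_right hphi (by positivity)
    have e4 : phi B * (cE B * τ) = (3 + B ^ 2 / 2) * τ := by rw [← mul_assoc, hCdef]
    nlinarith
  rw [abs_le] at key2
  constructor
  · set η := - c * v / 2 - cE B * τ with hη
    have t1 := Phi_taylor1 c (c + η)
    rw [abs_le] at t1
    have hη2 : η ^ 2 ≤ 2 * (c ^ 2 * v ^ 2 / 4 + (cE B * τ) ^ 2) := by
      rw [hη]; nlinarith [sq_nonneg (- c * v / 2 + cE B * τ)]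
    have n1 := hnum η hη2
    have e5 : c - c * v / 2 - cE B * τ = c + η := by rw [hη]; ring
    rw [e5]
    have e6 : c + η - c = η := by ring
    rw [e6] at t1
    have e7 : phi c * η = - c * phi c * v / 2 - phi c * (cE B * τ) := by rw [hη]; ring
    nlinarith [t1.2, key2.1]
  · set η := - c * v / 2 + cE B * τ with hη
    have t1 := Phi_taylor1 c (c + η)
    rw [abs_le] at t1
    have hη2 : η ^ 2 ≤ 2 * (c ^ 2 * v ^ 2 / 4 + (cE B * τ) ^ 2) := by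
      rw [hη]; nlinarith [sq_nonneg (- c * v / 2 - cE B * τ)]
    have n1 := hnum η hη2
    have e5 : c - c * v / 2 + cE B * τ = c + η := by rw [hη]; ring
    rw [e5]
    have e6 : c + η - c = η := by ring
    rw [e6] at t1
    have e7 : phi c * η = - c * phi c * v / 2 + phi c * (cE B * τ) := by rw [hη]; ring
    nlinarith [t1.1, key2.2]

end

end Vale.Agent.P262.EB
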