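import Mathlib

/-! # The standard normal distribution function `Phi`, its inverse, and Taylor bounds -/

open MeasureTheory ProbabilityTheory Set Filter Topology

namespace Vale.Agent.P262.EB

noncomputable section

/-- the standard normal density -/
def phi (x : ℝ) : ℝ := Real.exp (-x ^ 2 / 2) / Real.sqrt (2 * Real.pi)

/-- the standard normal distribution function -/
def Phi (x : ℝ) : ℝ := ∫ t in Iic x, phi t

lemma sqrt2pi_pos : 0 < Real.sqrt (2 * Real.pi) := Real.sqrt_pos.2 (by positivity)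

lemma phi_pos (x : ℝ) : 0 < phi x := div_pos (Real.exp_pos _) sqrt2pi_pos

lemma phi_eq_pdf (x : ℝ) : phi x = gaussianPDFReal 0 1 x := by
  simp only [phi, gaussianPDFReal, NNReal.coe_one, sub_zero, mul_one]
  rw [div_eq_mul_inv, mul_comm]

lemma phi_eq_pdf' : phi = gaussianPDFReal 0 1 := funext phi_eq_pdf

lemma continuous_phi : Continuous phi := by
  unfold phi; fun_prop

lemma phi_neg (x : ℝ) : phi (-x) = phi x := by simp [phi]

lemma integrable_phi : Integrable phi := by
  rw [phi_eq_pdf']; exact integrable_gaussianPDFReal 0 1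

lemma integral_phi : ∫ x, phi x = 1 := by
  rw [phi_eq_pdf']; exact integral_gaussianPDFReal_eq_one 0 one_ne_zero

lemma phi_le_one (x : ℝ) : phi x ≤ 1 := by
  unfold phi
  rw [div_le_one sqrt2pi_pos]
  have h1 : Real.exp (-x ^ 2 / 2) ≤ 1 := Real.exp_le_one_iff.2 (by nlinarith [sq_nonneg x])
  have h2 : (1 : ℝ) ≤ Real.sqrt (2 * Real.pi) := by
    rw [show (1 : ℝ) = Real.sqrt 1 by simp]
    exact Real.sqrt_le_sqrt (by nlinarith [Real.pi_gt_three])
  linarith

/-- `Phi x` as a measure -/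
lemma Phi_eq_measure (x : ℝ) : Phi x = (gaussianReal 0 1).real (Iic x) := by
  rw [Phi, phi_eq_pdf', measureReal_def, gaussianReal_apply_eq_integral 0 one_ne_zero,
    ENNReal.toReal_ofReal]
  exact setIntegral_nonneg measurableSet_Iic (fun t _ => gaussianPDFReal_nonneg 0 1 t)

lemma Phi_sub (a b : ℝ) : Phi b - Phi a = ∫ t in a..b, phi t := by
  unfold Phi
  rw [intervalIntegral.integral_Iic_sub_Iic integrable_phi.integrableOn integrable_phi.integrableOn]

lemma hasDerivAt_Phi (x : ℝ) : HasDerivAt Phi (phi x) x := by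
  have h : ∀ y, Phi y = Phi 0 + ∫ t in (0 : ℝ)..y, phi t := by
    intro y; rw [← Phi_sub]; ring
  have h2 : HasDerivAt (fun y => Phi 0 + ∫ t in (0 : ℝ)..y, phi t) (phi x) x := by
    refine HasDerivAt.const_add _ ?_
    exact intervalIntegral.integral_hasDerivAt_right (integrable_phi.intervalIntegrable)
      (continuous_phi.stronglyMeasurableAtFilter _ _) continuous_phi.continuousAt
  exact h2.congr_of_eventuallyEq (Eventually.of_forall h)

lemma continuous_Phi : Continuous Phi :=
  continuous_iff_continuousAt.2 fun x => (hasDerivAt_Phi x).continuousAt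

lemma measurable_Phi : Measurable Phi := continuous_Phi.measurable

lemma deriv_Phi (x : ℝ) : deriv Phi x = phi x := (hasDerivAt_Phi x).deriv

lemma strictMono_Phi : StrictMono Phi :=
  strictMono_of_deriv_pos fun x => by rw [deriv_Phi]; exact phi_pos x

lemma tendsto_Phi_atTop : Tendsto Phi atTop (𝓝 1) := by
  have h := tendsto_cdf_atTop (gaussianReal 0 1)
  refine h.congr fun x => ?_
  rw [Phi_eq_measure, cdf_eq_real]

lemma tendsto_Phi_atBot : Tendsto Phi atBot (𝓝 0) := by
  have h := tendsto_cdf_atBot (gaussianReal 0 1)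
  refine h.congr fun x => ?_
  rw [Phi_eq_measure, cdf_eq_real]

lemma Phi_pos (x : ℝ) : 0 < Phi x := by
  have h0 : 0 ≤ Phi (x - 1) := by rw [Phi_eq_measure]; exact measureReal_nonneg
  exact lt_of_le_of_lt h0 (strictMono_Phi (by linarith))

lemma Phi_lt_one (x : ℝ) : Phi x < 1 := by
  have h0 : Phi (x + 1) ≤ 1 := by rw [Phi_eq_measure]; exact measureReal_le_one
  exact lt_of_lt_of_le (strictMono_Phi (by linarith)) h0

lemma range_Phi : range Phi = Ioo 0 1 := by
  ext p
  constructor
  · rintro ⟨x, rfl⟩; exact ⟨Phi_pos x, Phi_lt_one x⟩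
  · rintro ⟨h0, h1⟩
    have ha : ∃ a, Phi a < p := ((tendsto_Phi_atBot.eventually (gt_mem_nhds h0))).exists
    have hb : ∃ b, p < Phi b := ((tendsto_Phi_atTop.eventually (lt_mem_nhds h1))).exists
    obtain ⟨a, ha⟩ := ha
    obtain ⟨b, hb⟩ := hb
    have := isPreconnected_univ.image Phi continuous_Phi.continuousOn
    have hoc : OrdConnected (Phi '' univ) := this.ordConnected
    obtain ⟨x, -, hx⟩ := hoc.out (mem_image_of_mem _ (mem_univ a)) (mem_image_of_mem _ (mem_univ b))
      ⟨ha.le, hb.le⟩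
    exact ⟨x, hx⟩

/-- the inverse of `Phi` on `(0,1)` (value `0` elsewhere is irrelevant) -/
def PhiInv (p : ℝ) : ℝ := Function.invFun Phi p

lemma PhiInv_Phi (x : ℝ) : PhiInv (Phi x) = x :=
  Function.leftInverse_invFun strictMono_Phi.injective x

lemma Phi_PhiInv {p : ℝ} (h0 : 0 < p) (h1 : p < 1) : Phi (PhiInv p) = p := by
  have : p ∈ range Phi := by rw [range_Phi]; exact ⟨h0, h1⟩
  exact Function.invFun_eq this

lemma le_PhiInv_iff {p x : ℝ} (h0 : 0 < p) (h1 : p < 1) : x ≤ PhiInv p ↔ Phi x ≤ p := by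
  rw [← strictMono_Phi.le_iff_le, Phi_PhiInv h0 h1]

lemma PhiInv_le_iff {p x : ℝ} (h0 : 0 < p) (h1 : p < 1) : PhiInv p ≤ x ↔ p ≤ Phi x := by
  rw [← strictMono_Phi.le_iff_le, Phi_PhiInv h0 h1]

lemma PhiInv_le_PhiInv {p q : ℝ} (hp : 0 < p) (hpq : p ≤ q) (hq : q < 1) :
    PhiInv p ≤ PhiInv q := by
  rw [PhiInv_le_iff hp (lt_of_le_of_lt hpq hq), Phi_PhiInv (lt_of_lt_of_le hp hpq) hq]
  exact hpq

lemma PhiInv_lt_PhiInv {p q : ℝ} (hp : 0 < p) (hpq : p < q) (hq : q < 1) :
    PhiInv p < PhiInv q := by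
  rw [← strictMono_Phi.lt_iff_lt, Phi_PhiInv hp (hpq.trans hq), Phi_PhiInv (hp.trans hpq) hq]
  exact hpq

/-! ### Bounds for the derivatives of `Phi` -/

lemma hasDerivAt_phi (x : ℝ) : HasDerivAt phi (-x * phi x) x := by
  unfold phi
  have h1 : HasDerivAt (fun x : ℝ => -x ^ 2 / 2) (-x) x := by
    have h : HasDerivAt (fun x : ℝ => -x ^ 2 / 2) (-((2 : ℕ) * x ^ (2 - 1)) / 2) x :=
      ((hasDerivAt_pow 2 x).neg).div_const 2
    refine h.congr_deriv ?_
    simp; ring
  have h2 := (h1.exp).div_const (Real.sqrt (2 * Real.pi))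
  refine h2.congr_deriv ?_
  ring

lemma abs_mul_phi_le (x : ℝ) : |(-x * phi x)| ≤ 1 := by
  rw [abs_mul, abs_of_pos (phi_pos x), abs_neg]
  unfold phi
  rw [← mul_div_assoc, div_le_one sqrt2pi_pos]
  have h2 : (1 : ℝ) ≤ Real.sqrt (2 * Real.pi) := by
    rw [show (1 : ℝ) = Real.sqrt 1 by simp]
    exact Real.sqrt_le_sqrt (by nlinarith [Real.pi_gt_three])
  refine le_trans ?_ h2
  have h3 : x ^ 2 / 2 + 1 ≤ Real.exp (x ^ 2 / 2) := Real.add_one_le_exp _
  have h4 : |x| ≤ Real.exp (x ^ 2 / 2) := by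
    have : |x| ≤ x ^ 2 / 2 + 1 := by
      have := sq_abs x
      nlinarith [sq_nonneg (|x| - 1), abs_nonneg x]
    linarith
  rw [show -x ^ 2 / 2 = -(x ^ 2 / 2) by ring, Real.exp_neg, ← div_eq_mul_inv,
    div_le_one (Real.exp_pos _)]
  exact h4

lemma hasDerivAt_phi' (x : ℝ) : HasDerivAt (fun x => -x * phi x) ((x ^ 2 - 1) * phi x) x := by
  have h : HasDerivAt (fun x => -x * phi x) (-1 * phi x + -x * (-x * phi x)) x :=
    (hasDerivAt_neg x).mul (hasDerivAt_phi x)
  refine h.congr_deriv ?_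
  ring

lemma abs_phi''_le (x : ℝ) : |(x ^ 2 - 1) * phi x| ≤ 1 := by
  rw [abs_mul, abs_of_pos (phi_pos x)]
  unfold phi
  rw [← mul_div_assoc, div_le_one sqrt2pi_pos]
  have h2 : (2 : ℝ) ≤ Real.sqrt (2 * Real.pi) := by
    have h22 : (2 : ℝ) = Real.sqrt (2 ^ 2) := by simp
    calc (2 : ℝ) = Real.sqrt (2 ^ 2) := h22
      _ ≤ Real.sqrt (2 * Real.pi) := Real.sqrt_le_sqrt (by nlinarith [Real.pi_gt_three])
  refine le_trans ?_ h2
  have h3 : x ^ 2 / 2 + 1 ≤ Real.exp (x ^ 2 / 2) := Real.add_one_le_exp _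
  have h4 : |x ^ 2 - 1| ≤ 2 * Real.exp (x ^ 2 / 2) := by
    rw [abs_le]; constructor <;> nlinarith [sq_nonneg x]
  rw [show -x ^ 2 / 2 = -(x ^ 2 / 2) by ring, Real.exp_neg, ← div_eq_mul_inv,
    div_le_iff₀ (Real.exp_pos _)]
  exact h4

/-- `phi` is 1-Lipschitz -/
lemma abs_phi_sub_le (x y : ℝ) : |phi y - phi x| ≤ |y - x| := by
  have h := Convex.norm_image_sub_le_of_norm_hasDerivWithin_le (s := univ) (f := phi)
    (f' := fun x => -x * phi x) (C := 1) (x := x) (y := y)
    (fun z _ => (hasDerivAt_phi z).hasDerivWithinAt) (fun z _ => abs_mul_phi_le z)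
    convex_univ (mem_univ _) (mem_univ _)
  simpa using h

/-- first order Taylor bound -/
lemma Phi_taylor1 (c y : ℝ) : |Phi y - Phi c - phi c * (y - c)| ≤ (y - c) ^ 2 := by
  have h := Convex.norm_image_sub_le_of_norm_hasDerivWithin_le (s := uIcc c y)
    (f := fun s => Phi s - phi c * s)
    (f' := fun s => phi s - phi c) (C := |y - c|) (x := c) (y := y)
    (fun z _ => by
      have := (hasDerivAt_Phi z).sub ((hasDerivAt_id z).const_mul (phi c))
      simp only [mul_one, id_eq] at this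
      exact this.hasDerivWithinAt)
    (fun z hz => by
      refine (abs_phi_sub_le c z).trans ?_
      rw [abs_sub_comm z c, abs_sub_comm y c]
      rw [mem_uIcc] at hz
      rcases hz with ⟨h1, h2⟩ | ⟨h1, h2⟩
      · rw [abs_sub_comm, abs_of_nonneg (by linarith), abs_sub_comm, abs_of_nonneg (by linarith)]
        linarith
      · rw [abs_of_nonneg (by linarith), abs_of_nonneg (by linarith)]; linarith)
    (convex_uIcc c y) left_mem_uIcc right_mem_uIcc
  simp only [Real.norm_eq_abs] at h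
  have e : Phi y - Phi c - phi c * (y - c) = Phi y - phi c * y - (Phi c - phi c * c) := by ring
  rw [e]
  calc _ ≤ |y - c| * |y - c| := h
    _ = (y - c) ^ 2 := by rw [← abs_mul, ← sq, abs_of_nonneg (sq_nonneg _)]

/-- Taylor bound for `phi` of first order -/
lemma phi_taylor1 (c y : ℝ) : |phi y - phi c - (-c * phi c) * (y - c)| ≤ (y - c) ^ 2 := by
  have h := Convex.norm_image_sub_le_of_norm_hasDerivWithin_le (s := uIcc c y)
    (f := fun s => phi s - (-c * phi c) * s)
    (f' := fun s => (-s * phi s) - (-c * phi c)) (C := |y - c|) (x := c) (y := y)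
    (fun z _ => by
      have := (hasDerivAt_phi z).sub ((hasDerivAt_id z).const_mul (-c * phi c))
      simp only [mul_one, id_eq] at this
      exact this.hasDerivWithinAt)
    (fun z hz => by
      have h' := Convex.norm_image_sub_le_of_norm_hasDerivWithin_le (s := univ)
        (f := fun x => -x * phi x)
        (f' := fun x => (x ^ 2 - 1) * phi x) (C := 1) (x := c) (y := z)
        (fun z _ => (hasDerivAt_phi' z).hasDerivWithinAt) (fun z _ => abs_phi''_le z)
        convex_univ (mem_univ _) (mem_univ _)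
      simp only [Real.norm_eq_abs, one_mul] at h'
      refine h'.trans ?_
      rw [mem_uIcc] at hz
      rcases hz with ⟨h1, h2⟩ | ⟨h1, h2⟩
      · rw [abs_of_nonneg (by linarith), abs_of_nonneg (by linarith)]
        linarith
      · rw [abs_of_nonpos (by linarith), abs_of_nonpos (by linarith)]; linarith)
    (convex_uIcc c y) left_mem_uIcc right_mem_uIcc
  simp only [Real.norm_eq_abs] at h
  have e : phi y - phi c - (-c * phi c) * (y - c)
    = phi y - (-c * phi c) * y - (phi c - (-c * phi c) * c) := by ring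
  rw [e]
  calc _ ≤ |y - c| * |y - c| := h
    _ = (y - c) ^ 2 := by rw [← abs_mul, ← sq, abs_of_nonneg (sq_nonneg _)]

/-- second order Taylor bound -/
lemma Phi_taylor2 (c y : ℝ) :
    |Phi y - Phi c - phi c * (y - c) + c * phi c * (y - c) ^ 2 / 2| ≤ |y - c| ^ 3 := by
  have h := Convex.norm_image_sub_le_of_norm_hasDerivWithin_le (s := uIcc c y)
    (f := fun s => Phi s - phi c * s + c * phi c * (s - c) ^ 2 / 2)
    (f' := fun s => phi s - phi c - (-c * phi c) * (s - c)) (C := (y - c) ^ 2) (x := c) (y := y)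
    (fun z _ => by
      have h0 : HasDerivAt (fun s : ℝ => s - c) 1 z := (hasDerivAt_id z).sub_const c
      have h1 : HasDerivAt (fun s => Phi s - phi c * s) (phi z - phi c * 1) z :=
        (hasDerivAt_Phi z).sub ((hasDerivAt_id z).const_mul (phi c))
      have h2 : HasDerivAt (fun s : ℝ => c * phi c * (s - c) ^ 2 / 2)
          (c * phi c * ((2 : ℕ) * (z - c) ^ (2 - 1) * 1) / 2) z :=
        ((h0.pow 2).const_mul (c * phi c)).div_const 2
      refine ((h1.add h2).congr_deriv ?_).hasDerivWithinAt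
      simp; ring)
    (fun z hz => by
      refine (phi_taylor1 c z).trans ?_
      rw [mem_uIcc] at hz
      rcases hz with ⟨h1, h2⟩ | ⟨h1, h2⟩ <;> nlinarith)
    (convex_uIcc c y) left_mem_uIcc right_mem_uIcc
  simp only [Real.norm_eq_abs] at h
  have e : Phi y - Phi c - phi c * (y - c) + c * phi c * (y - c) ^ 2 / 2
    = Phi y - phi c * y + c * phi c * (y - c) ^ 2 / 2
      - (Phi c - phi c * c + c * phi c * (c - c) ^ 2 / 2) := by ring
  rw [e]
  calc _ ≤ (y - c) ^ 2 * |y - c| := h
    _ = |y - c| ^ 3 := by rw [← sq_abs]; ring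

/-- on `[-B, B]` the function `Phi` is expanding by `phi B` -/
lemma phi_anti {x B : ℝ} (h : |x| ≤ B) : phi B ≤ phi x := by
  have h0 := abs_nonneg x
  have h1 : x ^ 2 ≤ B ^ 2 := by rw [← sq_abs x]; nlinarith
  unfold phi
  have h2 : Real.exp (-B ^ 2 / 2) ≤ Real.exp (-x ^ 2 / 2) := Real.exp_le_exp.2 (by linarith)
  exact div_le_div_of_nonneg_right h2 sqrt2pi_pos.le

lemma Phi_expand {B x y : ℝ} (hx : |x| ≤ B) (hy : |y| ≤ B) :
    phi B * |y - x| ≤ |Phi y - Phi x| := by
  wlog hxy : x ≤ y generalizing x y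
  · have := this hy hx (le_of_not_ge hxy)
    rwa [abs_sub_comm, abs_sub_comm (Phi y)]
  have hm := strictMono_Phi.monotone hxy
  rw [abs_of_nonneg (by linarith), abs_of_nonneg (by linarith), Phi_sub]
  have h1 : ∫ t in x..y, phi B ≤ ∫ t in x..y, phi t := by
    refine intervalIntegral.integral_mono_on hxy (by simp) integrable_phi.intervalIntegrable ?_
    intro t ht
    refine phi_anti ?_
    rw [abs_le] at *
    exact ⟨by linarith [ht.1], by linarith [ht.2]⟩
  simp only [intervalIntegral.integral_const, smul_eq_mul] at h1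
  linarith

lemma Phi_lip (x y : ℝ) : |Phi y - Phi x| ≤ |y - x| := by
  have h := Convex.norm_image_sub_le_of_norm_hasDerivWithin_le (s := univ) (f := Phi)
    (f' := phi) (C := 1) (x := x) (y := y)
    (fun z _ => (hasDerivAt_Phi z).hasDerivWithinAt)
    (fun z _ => by rw [Real.norm_eq_abs, abs_of_pos (phi_pos z)]; exact phi_le_one z)
    convex_univ (mem_univ _) (mem_univ _)
  simpa using h

lemma Phi_neg (x : ℝ) : Phi (-x) = 1 - Phi x := by
  have h1 : Phi (-x) = ∫ t in Ioi x, phi t := by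
    unfold Phi
    have := integral_comp_neg_Iic (-x) phi
    simp only [phi_neg, neg_neg] at this
    exact this
  have h2 : (∫ t in Iic x, phi t) + ∫ t in Ioi x, phi t = 1 := by
    rw [← integral_phi, ← compl_Iic]
    exact integral_add_compl measurableSet_Iic integrable_phi
  unfold Phi at *
  linarith

end

end Vale.Agent.P262.EB
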