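import Vale.Agent.P262.H847.EhrCor

/-!
# The second order (infinitesimal) form of Ehrhard's inequality

Let `μ` be a measure satisfying Ehrhard's functional inequality (`Ehr μ`), with second moments,
`w` a `C^{2,1}` function with `P = -D²w ≥ δ > 0` and `∫ Φ(w) dμ ≥ 1/2`.  Then for every `f` with
bounded and Lipschitz gradient
`∫ (w f² + ⟨P⁻¹∇f, ∇f⟩) φ(w) dμ ≥ 0`.
Here `⟨P⁻¹∇f, ∇f⟩ = Df(x)(V x)` with `V` the vector field defined by `P V = ∇f`.
-/

namespace Vale.Agent.P262.EB2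

open MeasureTheory ProbabilityTheory Set Filter Topology
open Vale.Agent.P262.H847

/-! ### a one-dimensional second difference estimate -/

lemma second_diff_le {g g1 g2 : ℝ → ℝ} (h1 : ∀ s, HasDerivAt g (g1 s) s)
    (h2 : ∀ s, HasDerivAt g1 (g2 s) s) {c : ℝ} (hc : ∀ s ∈ Icc (-1:ℝ) 1, g2 s ≤ c) :
    g 1 + g (-1) - 2 * g 0 ≤ c := by
  have e1 : ∀ s, HasDerivAt (fun s => g1 s - g1 (-s) - 2 * c * s) (g2 s + g2 (-s) - 2 * c) s := by
    intro s
    have a1 := h2 s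
    have a2 : HasDerivAt (fun s => g1 (-s)) (-(g2 (-s))) s := by
      exact ((h2 (-s)).scomp s (hasDerivAt_neg s)).congr_deriv (by simp)
    have a3 : HasDerivAt (fun s : ℝ => 2 * c * s) (2 * c) s := by
      simpa using (hasDerivAt_id s).const_mul (2 * c)
    exact ((a1.sub a2).sub a3).congr_deriv (by ring)
  have e0 : ∀ s, HasDerivAt (fun s => g s + g (-s) - c * s ^ 2) (g1 s - g1 (-s) - 2 * c * s) s := by
    intro s
    have a1 := h1 s
    have a2 : HasDerivAt (fun s => g (-s)) (-(g1 (-s))) s := by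
      exact ((h1 (-s)).scomp s (hasDerivAt_neg s)).congr_deriv (by simp)
    have a3 : HasDerivAt (fun s : ℝ => c * s ^ 2) (c * (2 * s)) s := by
      simpa using (hasDerivAt_pow 2 s).const_mul c
    exact ((a1.add a2).sub a3).congr_deriv (by ring)
  have k1 : AntitoneOn (fun s => g1 s - g1 (-s) - 2 * c * s) (Icc (0:ℝ) 1) := by
    apply antitoneOn_of_deriv_nonpos (convex_Icc 0 1)
    · exact fun s _ => (e1 s).continuousAt.continuousWithinAt
    · exact fun s _ => (e1 s).differentiableAt.differentiableWithinAt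
    · intro s hs
      rw [interior_Icc] at hs
      rw [(e1 s).deriv]
      have b1 := hc s ⟨by linarith [hs.1], hs.2.le⟩
      have b2 := hc (-s) ⟨by linarith [hs.2], by linarith [hs.1]⟩
      linarith
  have k0 : AntitoneOn (fun s => g s + g (-s) - c * s ^ 2) (Icc (0:ℝ) 1) := by
    apply antitoneOn_of_deriv_nonpos (convex_Icc 0 1)
    · exact fun s _ => (e0 s).continuousAt.continuousWithinAt
    · exact fun s _ => (e0 s).differentiableAt.differentiableWithinAt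
    · intro s hs
      rw [interior_Icc] at hs
      rw [(e0 s).deriv]
      have := k1 (left_mem_Icc.mpr zero_le_one) ⟨hs.1.le, hs.2.le⟩ hs.1.le
      simpa using this
  have := k0 (left_mem_Icc.mpr zero_le_one) (right_mem_Icc.mpr zero_le_one) zero_le_one
  simp at this
  linarith

/-! ### regularity classes -/

section

variable {E : Type*} [NormedAddCommGroup E] [NormedSpace ℝ E]

/-- `w` is `C^{2,1}` and `-D²w ≥ δ` -/
structure Pot (w : E → ℝ) (D : E → E →L[ℝ] ℝ) (H : E → E →L[ℝ] E →L[ℝ] ℝ) (δ M : ℝ) : Prop where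
  d1 : ∀ x, HasFDerivAt w (D x) x
  d2 : ∀ x, HasFDerivAt D (H x) x
  lip : ∀ x y, ‖H x - H y‖ ≤ M * ‖x - y‖
  conc : ∀ x v, δ * ‖v‖ ^ 2 ≤ -(H x v v)

/-- `f` is `C^{1,1}` with bounded gradient -/
structure Fld (f : E → ℝ) (D : E → E →L[ℝ] ℝ) (L1 L2 : ℝ) : Prop where
  d1 : ∀ x, HasFDerivAt f (D x) x
  bd : ∀ x, ‖D x‖ ≤ L1
  lip : ∀ x y, ‖D x - D y‖ ≤ L2 * ‖x - y‖

variable {w : E → ℝ} {D : E → E →L[ℝ] ℝ} {H : E → E →L[ℝ] E →L[ℝ] ℝ} {δ M : ℝ}
  {f : E → ℝ} {Df : E → E →L[ℝ] ℝ} {L1 L2 : ℝ}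

lemma Pot.symm (hw : Pot w D H δ M) (x u v : E) : H x u v = H x v u :=
  second_derivative_symmetric (f := w) (f' := D) (f'' := H x) (fun y => hw.d1 y) (hw.d2 x) u v

lemma Pot.M_nonneg [Nontrivial E] (hw : Pot w D H δ M) : 0 ≤ M := by
  obtain ⟨x, y, hxy⟩ := exists_pair_ne E
  have h1 := hw.lip x y
  have h2 : 0 < ‖x - y‖ := norm_pos_iff.mpr (sub_ne_zero.mpr hxy)
  have h3 : 0 ≤ M * ‖x - y‖ := (norm_nonneg (H x - H y)).trans h1
  by_contra h
  push Not at h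
  nlinarith

/-- second difference of `w` -/
lemma Pot.second (hw : Pot w D H δ M) (m h : E) {c : ℝ}
    (hc : ∀ s ∈ Icc (-1:ℝ) 1, H (m + s • h) h h ≤ c) :
    w (m + h) + w (m - h) - 2 * w m ≤ c := by
  have hl : ∀ s : ℝ, HasDerivAt (fun s : ℝ => m + s • h) h s := by
    intro s
    have := ((hasDerivAt_id s).smul_const h).const_add m
    simpa using this
  have h1 : ∀ s : ℝ, HasDerivAt (fun s : ℝ => w (m + s • h)) (D (m + s • h) h) s := by
    intro s
    exact (hw.d1 (m + s • h)).comp_hasDerivAt s (hl s)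
  have h2 : ∀ s : ℝ, HasDerivAt (fun s : ℝ => D (m + s • h) h) (H (m + s • h) h h) s := by
    intro s
    have a1 := (hw.d2 (m + s • h)).comp_hasDerivAt s (hl s)
    exact ((ContinuousLinearMap.apply ℝ ℝ h).hasFDerivAt.comp_hasDerivAt s a1)
  have := second_diff_le h1 h2 hc
  simpa [sub_eq_add_neg] using this

lemma Pot.second_near (hw : Pot w D H δ M) (hM : 0 ≤ M) (m h : E) :
    w (m + h) + w (m - h) - 2 * w m ≤ H m h h + M * ‖h‖ ^ 3 := by
  apply hw.second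
  intro s hs
  have h1 : H (m + s • h) h h - H m h h = (H (m + s • h) - H m) h h := by simp
  have h2 : (H (m + s • h) - H m) h h ≤ ‖H (m + s • h) - H m‖ * ‖h‖ * ‖h‖ :=
    le_trans (le_abs_self _) ((Real.norm_eq_abs _).symm.le.trans
      (ContinuousLinearMap.le_opNorm₂ _ h h))
  have h3 := hw.lip (m + s • h) m
  have h4 : ‖m + s • h - m‖ ≤ ‖h‖ := by
    rw [add_sub_cancel_left, norm_smul, Real.norm_eq_abs]
    have : |s| ≤ 1 := abs_le.mpr ⟨by linarith [hs.1], hs.2⟩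
    nlinarith [norm_nonneg h]
  have h5 : ‖H (m + s • h) - H m‖ ≤ M * ‖h‖ := h3.trans (mul_le_mul_of_nonneg_left h4 hM)
  have h6 : ‖H (m + s • h) - H m‖ * ‖h‖ * ‖h‖ ≤ M * ‖h‖ * ‖h‖ * ‖h‖ := by gcongr
  nlinarith

lemma Pot.second_far (hw : Pot w D H δ M) (m h : E) :
    w (m + h) + w (m - h) - 2 * w m ≤ -(δ * ‖h‖ ^ 2) := by
  apply hw.second
  intro s _
  have := hw.conc (m + s • h) h
  linarith

lemma Fld.L1_nonneg (hf : Fld f Df L1 L2) : 0 ≤ L1 := (norm_nonneg _).trans (hf.bd 0)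

lemma Fld.diff_far (hf : Fld f Df L1 L2) (x y : E) : |f x - f y| ≤ L1 * ‖x - y‖ := by
  have := Convex.norm_image_sub_le_of_norm_hasFDerivWithin_le (f := f) (f' := Df) (C := L1)
    (s := univ) (x := y) (y := x) (fun z _ => (hf.d1 z).hasFDerivWithinAt) (fun z _ => hf.bd z)
    convex_univ (mem_univ _) (mem_univ _)
  rwa [Real.norm_eq_abs] at this

lemma Fld.diff_near (hf : Fld f Df L1 L2) (hL2 : 0 ≤ L2) (m h : E) :
    |f (m + h) - f (m - h) - 2 * Df m h| ≤ 2 * L2 * ‖h‖ ^ 2 := by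
  have key := Convex.norm_image_sub_le_of_norm_hasFDerivWithin_le
    (f := fun z => f z - Df m z) (f' := fun z => Df z - Df m) (C := L2 * ‖h‖)
    (s := Metric.closedBall m ‖h‖) (x := m - h) (y := m + h)
    (fun z _ => ((hf.d1 z).sub (Df m).hasFDerivAt).hasFDerivWithinAt)
    (fun z hz => ?_) (convex_closedBall m ‖h‖) ?_ ?_
  · rw [Real.norm_eq_abs] at key
    have e1 : f (m + h) - Df m (m + h) - (f (m - h) - Df m (m - h))
        = f (m + h) - f (m - h) - 2 * Df m h := by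
      simp only [map_add, map_sub]; ring
    rw [e1] at key
    have e2 : ‖m + h - (m - h)‖ = 2 * ‖h‖ := by
      rw [show m + h - (m - h) = (2:ℝ) • h by rw [two_smul]; abel, norm_smul]; norm_num
    rw [e2] at key
    nlinarith
  · have h1 := hf.lip z m
    have h2 : ‖z - m‖ ≤ ‖h‖ := by rwa [Metric.mem_closedBall, dist_eq_norm] at hz
    exact h1.trans (mul_le_mul_of_nonneg_left h2 hL2)
  · rw [Metric.mem_closedBall, dist_eq_norm]; simp
  · rw [Metric.mem_closedBall, dist_eq_norm]; simp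

variable {V : E → E}

/-- `V = P⁻¹ ∇f` is bounded -/
lemma norm_V_le (hw : Pot w D H δ M) (hδ : 0 < δ) (hf : Fld f Df L1 L2)
    (hV : ∀ x u, -(H x (V x) u) = Df x u) (x : E) : ‖V x‖ ≤ L1 / δ := by
  have h1 := hw.conc x (V x)
  rw [hV x (V x)] at h1
  have h2 : Df x (V x) ≤ L1 * ‖V x‖ :=
    (le_abs_self _).trans ((Real.norm_eq_abs _).symm.le.trans
      ((ContinuousLinearMap.le_opNorm _ _).trans
        (mul_le_mul_of_nonneg_right (hf.bd x) (norm_nonneg _))))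
  rw [le_div_iff₀ hδ]
  by_cases hz : ‖V x‖ = 0
  · rw [hz]; simpa using hf.L1_nonneg
  · have hp : 0 < ‖V x‖ := lt_of_le_of_ne (norm_nonneg _) (Ne.symm hz)
    nlinarith

lemma q_nonneg (hw : Pot w D H δ M) (hδ : 0 < δ)
    (hV : ∀ x u, -(H x (V x) u) = Df x u) (x : E) : 0 ≤ Df x (V x) := by
  rw [← hV x (V x)]
  exact le_trans (by positivity) (hw.conc x (V x))

lemma q_le (hw : Pot w D H δ M) (hδ : 0 < δ) (hf : Fld f Df L1 L2)
    (hV : ∀ x u, -(H x (V x) u) = Df x u) (x : E) : Df x (V x) ≤ L1 * (L1 / δ) := by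
  have h2 : Df x (V x) ≤ L1 * ‖V x‖ :=
    (le_abs_self _).trans ((Real.norm_eq_abs _).symm.le.trans
      ((ContinuousLinearMap.le_opNorm _ _).trans
        (mul_le_mul_of_nonneg_right (hf.bd x) (norm_nonneg _))))
  exact h2.trans (mul_le_mul_of_nonneg_left (norm_V_le hw hδ hf hV x) hf.L1_nonneg)

/-- `q = ⟨P⁻¹∇f,∇f⟩` is Lipschitz from below -/
lemma q_lower (hw : Pot w D H δ M) (hδ : 0 < δ) (hM : 0 ≤ M) (hL2 : 0 ≤ L2) (hf : Fld f Df L1 L2)
    (hV : ∀ x u, -(H x (V x) u) = Df x u) (x y : E) :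
    Df x (V x) - (2 * L2 * (L1 / δ) + M * (L1 / δ) ^ 2) * ‖y - x‖ ≤ Df y (V y) := by
  have hvx := norm_V_le hw hδ hf hV x
  have hL := hf.L1_nonneg
  have hr : 0 ≤ L1 / δ := div_nonneg hL hδ.le
  -- `q y ≥ 2 Df y v - P y v v` with `v = V x`
  have h1 : 0 ≤ -(H y (V y - V x) (V y - V x)) := le_trans (by positivity) (hw.conc y _)
  have h2 : -(H y (V y - V x) (V y - V x))
      = Df y (V y) - 2 * Df y (V x) + -(H y (V x) (V x)) := by
    have a1 := hV y (V y)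
    have a2 := hV y (V x)
    have a3 := hw.symm y (V x) (V y)
    simp only [map_sub, _root_.sub_apply]
    linarith
  have h3 : -(H x (V x) (V x)) = Df x (V x) := hV x (V x)
  have h4 : |Df y (V x) - Df x (V x)| ≤ L2 * ‖y - x‖ * (L1 / δ) := by
    have e : Df y (V x) - Df x (V x) = (Df y - Df x) (V x) := by simp
    rw [e, ← Real.norm_eq_abs]
    refine (ContinuousLinearMap.le_opNorm _ _).trans ?_
    have := hf.lip y x
    have h0 : 0 ≤ L2 * ‖y - x‖ := by positivity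
    exact mul_le_mul this hvx (norm_nonneg _) h0
  have h5 : |H y (V x) (V x) - H x (V x) (V x)| ≤ M * ‖y - x‖ * (L1 / δ) ^ 2 := by
    have e : H y (V x) (V x) - H x (V x) (V x) = (H y - H x) (V x) (V x) := by simp
    rw [e, ← Real.norm_eq_abs]
    refine (ContinuousLinearMap.le_opNorm₂ _ _ _).trans ?_
    have := hw.lip y x
    have h0 : 0 ≤ M * ‖y - x‖ := by positivity
    calc ‖H y - H x‖ * ‖V x‖ * ‖V x‖ ≤ (M * ‖y - x‖) * (L1 / δ) * (L1 / δ) := by
          gcongr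
      _ = M * ‖y - x‖ * (L1 / δ) ^ 2 := by ring
  rw [abs_le] at h4 h5
  nlinarith [h4.1, h4.2, h5.1, h5.2]

/-- the midpoint inequality -/
lemma midpoint (hw : Pot w D H δ M) (hδ : 0 < δ) (hM : 0 ≤ M) (hL2 : 0 ≤ L2)
    (hf : Fld f Df L1 L2) (hV : ∀ x u, -(H x (V x) u) = Df x u) :
    ∃ R, 0 ≤ R ∧ ∀ t : ℝ, 0 ≤ t → ∀ m h : E,
      (1 / 2) * (w (m + h) + t * f (m + h) - t ^ 2 / 2 * Df (m + h) (V (m + h)))
      + (1 / 2) * (w (m - h) - t * f (m - h) - t ^ 2 / 2 * Df (m - h) (V (m - h)))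
      ≤ w m + R * t ^ 3 := by
  set C := 2 * L2 * (L1 / δ) + M * (L1 / δ) ^ 2 with hC
  set K := 2 * L1 / δ with hK
  have hL := hf.L1_nonneg
  have hr : 0 ≤ L1 / δ := div_nonneg hL hδ.le
  have hC0 : 0 ≤ C := by positivity
  have hK0 : 0 ≤ K := by positivity
  refine ⟨(1 / 2) * M * K ^ 3 + L2 * K ^ 2 + (1 / 2) * C * K, by positivity, ?_⟩
  intro t ht m h
  have q1 := q_lower hw hδ hM hL2 hf hV m (m + h)
  have q2 := q_lower hw hδ hM hL2 hf hV m (m - h)
  have q1' := q_nonneg hw hδ hV (m + h)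
  have q2' := q_nonneg hw hδ hV (m - h)
  rw [← hC] at q1 q2
  have e1 : ‖m + h - m‖ = ‖h‖ := by congr 1; abel
  have e2 : ‖m - h - m‖ = ‖h‖ := by
    rw [show m - h - m = -h by abel, norm_neg]
  rw [e1] at q1
  rw [e2] at q2
  by_cases hh : ‖h‖ ≤ K * t
  · have s1 := hw.second_near hM m h
    have s2 := hf.diff_near hL2 m h
    rw [abs_le] at s2
    -- the square
    have s3 : 0 ≤ -(H m (h - t • V m) (h - t • V m)) := le_trans (by positivity) (hw.conc m _)
    have s4 : -(H m (h - t • V m) (h - t • V m))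
        = -(H m h h) - 2 * t * Df m h + t ^ 2 * Df m (V m) := by
      have a1 := hV m h
      have a2 := hw.symm m h (V m)
      have a3 := hV m (V m)
      simp only [map_sub, _root_.sub_apply, map_smul, _root_.smul_apply,
        smul_eq_mul]
      rw [← a1, ← a3, a2]
      ring
    have n0 : 0 ≤ ‖h‖ := norm_nonneg h
    have n3 : ‖h‖ ^ 3 ≤ (K * t) ^ 3 := by gcongr
    have n2 : ‖h‖ ^ 2 ≤ (K * t) ^ 2 := by gcongr
    have b1 : M * ‖h‖ ^ 3 ≤ M * (K * t) ^ 3 := mul_le_mul_of_nonneg_left n3 hM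
    have b2 : t * (L2 * ‖h‖ ^ 2) ≤ t * (L2 * (K * t) ^ 2) :=
      mul_le_mul_of_nonneg_left (mul_le_mul_of_nonneg_left n2 hL2) ht
    have b3 : t ^ 2 * (C * ‖h‖) ≤ t ^ 2 * (C * (K * t)) :=
      mul_le_mul_of_nonneg_left (mul_le_mul_of_nonneg_left hh hC0) (by positivity)
    have b4 : t * (f (m + h) - f (m - h) - 2 * Df m h) ≤ t * (2 * L2 * ‖h‖ ^ 2) :=
      mul_le_mul_of_nonneg_left s2.2 ht
    have b5 : t ^ 2 * (Df m (V m) - C * ‖h‖) ≤ t ^ 2 * Df (m + h) (V (m + h)) :=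
      mul_le_mul_of_nonneg_left q1 (by positivity)
    have b6 : t ^ 2 * (Df m (V m) - C * ‖h‖) ≤ t ^ 2 * Df (m - h) (V (m - h)) :=
      mul_le_mul_of_nonneg_left q2 (by positivity)
    nlinarith
  · push Not at hh
    have s1 := hw.second_far m h
    have s2 := hf.diff_far (m + h) (m - h)
    have e3 : ‖m + h - (m - h)‖ = 2 * ‖h‖ := by
      rw [show m + h - (m - h) = (2:ℝ) • h by rw [two_smul]; abel, norm_smul]; norm_num
    rw [e3, abs_le] at s2
    have n0 : 0 ≤ ‖h‖ := norm_nonneg h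
    have b1 : t * (f (m + h) - f (m - h)) ≤ t * (L1 * (2 * ‖h‖)) :=
      mul_le_mul_of_nonneg_left s2.2 ht
    have b2 : 2 * L1 * t ≤ δ * ‖h‖ := by
      have : K * t = 2 * L1 * t / δ := by rw [hK]; ring
      rw [this, div_lt_iff₀ hδ] at hh
      linarith
    have b3 : 2 * L1 * t * ‖h‖ ≤ δ * ‖h‖ * ‖h‖ := mul_le_mul_of_nonneg_right b2 n0
    have b4 : 0 ≤ t ^ 2 * Df (m + h) (V (m + h)) := by positivity
    have b5 : 0 ≤ t ^ 2 * Df (m - h) (V (m - h)) := by positivity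
    have b6 : 0 ≤ ((1 / 2) * M * K ^ 3 + L2 * K ^ 2 + (1 / 2) * C * K) * t ^ 3 := by positivity
    nlinarith

end

end Vale.Agent.P262.EB2
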