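import Vale.Agent.P262.EB.Phi
import Vale.Agent.P262.EB.Second

/-!
# The second order form of Ehrhard's inequality: integration
-/

namespace Vale.Agent.P262.EB2

open MeasureTheory ProbabilityTheory Set Filter Topology
open Vale.Agent.P262.H847

lemma phi_bridge (x : ℝ) : EB.phi x = phi x := EB.phi_eq_pdf x

lemma Phi_bridge (x : ℝ) : EB.Phi x = Phi x := EB.Phi_eq_measure x

lemma Phi_lip (x y : ℝ) : |Phi y - Phi x| ≤ |y - x| := by
  have := EB.Phi_lip x y
  rwa [Phi_bridge, Phi_bridge] at this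

lemma Phi_taylor1 (c y : ℝ) : |Phi y - Phi c - phi c * (y - c)| ≤ (y - c) ^ 2 := by
  have := EB.Phi_taylor1 c y
  rwa [Phi_bridge, Phi_bridge, phi_bridge] at this

lemma Phi_taylor2 (c y : ℝ) :
    |Phi y - Phi c - phi c * (y - c) + c * phi c * (y - c) ^ 2 / 2| ≤ |y - c| ^ 3 := by
  have := EB.Phi_taylor2 c y
  rwa [Phi_bridge, Phi_bridge, phi_bridge] at this

lemma abs_mul_phi_le (x : ℝ) : |x * phi x| ≤ 1 := by
  have := EB.abs_mul_phi_le x
  rwa [phi_bridge, neg_mul, abs_neg] at this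

/-- second difference quotient of `t ↦ Φ(c + t a - t² b / 2)` -/
lemma quot_bound (c a b t : ℝ) (hb : 0 ≤ b) (ht0 : 0 < t) (ht1 : t ≤ 1) :
    |(Phi (c + t * a - t ^ 2 / 2 * b) + Phi (c - t * a - t ^ 2 / 2 * b) - 2 * Phi c) / t ^ 2|
      ≤ b + 4 * a ^ 2 + b ^ 2 := by
  have ht2 : 0 < t ^ 2 := by positivity
  have h1 := Phi_taylor1 c (c + t * a - t ^ 2 / 2 * b)
  have h2 := Phi_taylor1 c (c - t * a - t ^ 2 / 2 * b)
  have e1 : c + t * a - t ^ 2 / 2 * b - c = t * a - t ^ 2 / 2 * b := by ring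
  have e2 : c - t * a - t ^ 2 / 2 * b - c = -(t * a) - t ^ 2 / 2 * b := by ring
  rw [e1] at h1
  rw [e2] at h2
  rw [abs_div, abs_of_pos ht2, div_le_iff₀ ht2]
  have hp := phi_pos c
  have hp1 := phi_le_one c
  have hpb : phi c * b ≤ b := by nlinarith
  have hpb0 : 0 ≤ phi c * b := by positivity
  have h3 : (t * a - t ^ 2 / 2 * b) ^ 2 + (-(t * a) - t ^ 2 / 2 * b) ^ 2
      = t ^ 2 * (2 * a ^ 2 + t ^ 2 * b ^ 2 / 2) := by ring
  have h4 : t ^ 2 * b ^ 2 ≤ b ^ 2 := by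
    have : t ^ 2 ≤ 1 := by nlinarith
    nlinarith [sq_nonneg b]
  have h5 : t ^ 2 * (2 * a ^ 2 + t ^ 2 * b ^ 2 / 2) ≤ t ^ 2 * (4 * a ^ 2 + b ^ 2) := by
    apply mul_le_mul_of_nonneg_left _ ht2.le
    nlinarith [sq_nonneg a, sq_nonneg b]
  have h6 : t ^ 2 * (phi c * b) ≤ t ^ 2 * b := mul_le_mul_of_nonneg_left hpb ht2.le
  have h7 : 0 ≤ t ^ 2 * (phi c * b) := by positivity
  rw [abs_le] at h1 h2 ⊢
  constructor <;> nlinarith [h1.1, h1.2, h2.1, h2.2]

lemma quot_tendsto (c a b : ℝ) :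
    Tendsto (fun t : ℝ => (Phi (c + t * a - t ^ 2 / 2 * b) + Phi (c - t * a - t ^ 2 / 2 * b)
      - 2 * Phi c) / t ^ 2) (𝓝[>] 0) (𝓝 (-((c * a ^ 2 + b) * phi c))) := by
  -- the error is at most `C t`
  set B : ℝ := |a| + |b| with hB
  have hB0 : 0 ≤ B := by positivity
  have key : ∀ᶠ t : ℝ in 𝓝[>] 0,
      ‖(Phi (c + t * a - t ^ 2 / 2 * b) + Phi (c - t * a - t ^ 2 / 2 * b) - 2 * Phi c) / t ^ 2
        - (-((c * a ^ 2 + b) * phi c))‖ ≤ (2 * B ^ 3 + |c * phi c * b ^ 2|) * t := by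
    filter_upwards [Ioc_mem_nhdsGT (zero_lt_one (α := ℝ))] with t ht
    obtain ⟨ht0, ht1⟩ := ht
    have ht2 : 0 < t ^ 2 := by positivity
    have h1 := Phi_taylor2 c (c + t * a - t ^ 2 / 2 * b)
    have h2 := Phi_taylor2 c (c - t * a - t ^ 2 / 2 * b)
    have e1 : c + t * a - t ^ 2 / 2 * b - c = t * a - t ^ 2 / 2 * b := by ring
    have e2 : c - t * a - t ^ 2 / 2 * b - c = -(t * a) - t ^ 2 / 2 * b := by ring
    rw [e1] at h1
    rw [e2] at h2
    have n0 : t ^ 2 * |b| ≤ t * |b| := by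
      apply mul_le_mul_of_nonneg_right _ (abs_nonneg b); nlinarith
    have n1 : |t * a - t ^ 2 / 2 * b| ≤ t * B := by
      have := abs_sub (t * a) (t ^ 2 / 2 * b)
      rw [abs_mul, abs_mul, abs_of_pos ht0, abs_of_pos (by positivity : 0 < t ^ 2 / 2)] at this
      have h0 : 0 ≤ t ^ 2 * |b| := by positivity
      rw [hB]; nlinarith
    have n2 : |-(t * a) - t ^ 2 / 2 * b| ≤ t * B := by
      have := abs_sub (-(t * a)) (t ^ 2 / 2 * b)
      rw [abs_neg, abs_mul, abs_mul, abs_of_pos ht0,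
        abs_of_pos (by positivity : 0 < t ^ 2 / 2)] at this
      have h0 : 0 ≤ t ^ 2 * |b| := by positivity
      rw [hB]; nlinarith
    have m1 : |t * a - t ^ 2 / 2 * b| ^ 3 ≤ (t * B) ^ 3 := by gcongr
    have m2 : |-(t * a) - t ^ 2 / 2 * b| ^ 3 ≤ (t * B) ^ 3 := by gcongr
    have g1 := h1.trans m1
    have g2 := h2.trans m2
    have e3 : (Phi (c + t * a - t ^ 2 / 2 * b) + Phi (c - t * a - t ^ 2 / 2 * b) - 2 * Phi c) / t ^ 2
        - (-((c * a ^ 2 + b) * phi c))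
        = ((Phi (c + t * a - t ^ 2 / 2 * b) - Phi c - phi c * (t * a - t ^ 2 / 2 * b)
            + c * phi c * (t * a - t ^ 2 / 2 * b) ^ 2 / 2)
          + (Phi (c - t * a - t ^ 2 / 2 * b) - Phi c - phi c * (-(t * a) - t ^ 2 / 2 * b)
            + c * phi c * (-(t * a) - t ^ 2 / 2 * b) ^ 2 / 2)
          - t ^ 4 * (c * phi c * b ^ 2) / 4) / t ^ 2 := by
      field_simp
      ring
    rw [e3, Real.norm_eq_abs, abs_div, abs_of_pos ht2, div_le_iff₀ ht2]
    have g3 : |t ^ 4 * (c * phi c * b ^ 2) / 4| ≤ t ^ 3 * |c * phi c * b ^ 2| := by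
      rw [abs_div, abs_mul, abs_of_pos (by positivity : 0 < t ^ 4), abs_of_pos (by norm_num : (0:ℝ) < 4)]
      have h0 := abs_nonneg (c * phi c * b ^ 2)
      have : t ^ 4 ≤ t ^ 3 := by
        have : 0 < t ^ 3 := by positivity
        nlinarith
      have h5 : t ^ 4 * |c * phi c * b ^ 2| ≤ t ^ 3 * |c * phi c * b ^ 2| :=
        mul_le_mul_of_nonneg_right this h0
      have h6 : 0 ≤ t ^ 4 * |c * phi c * b ^ 2| := by positivity
      linarith
    refine (abs_sub _ _).trans ((add_le_add ((abs_add_le _ _).trans (add_le_add g1 g2)) g3).trans ?_)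
    nlinarith
  rw [tendsto_iff_norm_sub_tendsto_zero]
  refine squeeze_zero' (Eventually.of_forall fun t => norm_nonneg _) key ?_
  have : Tendsto (fun t : ℝ => (2 * B ^ 3 + |c * phi c * b ^ 2|) * t) (𝓝 0)
      (𝓝 ((2 * B ^ 3 + |c * phi c * b ^ 2|) * 0)) := tendsto_id.const_mul _
  rw [mul_zero] at this
  exact this.mono_left nhdsWithin_le_nhds

section

variable {E : Type*} [NormedAddCommGroup E] [NormedSpace ℝ E] [MeasurableSpace E] [BorelSpace E]
  {w : E → ℝ} {D : E → E →L[ℝ] ℝ} {H : E → E →L[ℝ] E →L[ℝ] ℝ} {δ M : ℝ}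
  {f : E → ℝ} {Df : E → E →L[ℝ] ℝ} {L1 L2 : ℝ} {V : E → E}

omit [MeasurableSpace E] [BorelSpace E] in
lemma Pot.continuous (hw : Pot w D H δ M) : Continuous w :=
  continuous_iff_continuousAt.mpr fun x => (hw.d1 x).continuousAt

omit [MeasurableSpace E] [BorelSpace E] in
lemma Fld.continuous (hf : Fld f Df L1 L2) : Continuous f :=
  continuous_iff_continuousAt.mpr fun x => (hf.d1 x).continuousAt

omit [MeasurableSpace E] [BorelSpace E] in
lemma Fld.abs_le (hf : Fld f Df L1 L2) (x : E) : |f x| ≤ |f 0| + L1 * ‖x‖ := by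
  have h1 := hf.diff_far x 0
  rw [sub_zero] at h1
  have h2 : |f x| ≤ |f x - f 0| + |f 0| := by
    have := abs_add_le (f x - f 0) (f 0)
    rwa [sub_add_cancel] at this
  linarith

omit [MeasurableSpace E] [BorelSpace E] in
lemma Fld.sq_le (hf : Fld f Df L1 L2) (x : E) :
    f x ^ 2 ≤ 2 * f 0 ^ 2 + 2 * L1 ^ 2 * ‖x‖ ^ 2 := by
  have h1 := hf.abs_le x
  have h2 : f x ^ 2 ≤ (|f 0| + L1 * ‖x‖) ^ 2 := by
    rw [← sq_abs (f x)]
    gcongr
  have h3 : |f 0| ^ 2 = f 0 ^ 2 := sq_abs _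
  nlinarith [sq_nonneg (|f 0| - L1 * ‖x‖)]

lemma Fld.integrable_sq (hf : Fld f Df L1 L2) {μ : Measure E} [IsProbabilityMeasure μ]
    (hmom : Integrable (fun x => ‖x‖ ^ 2) μ) : Integrable (fun x => f x ^ 2) μ := by
  refine Integrable.mono' ((integrable_const (2 * f 0 ^ 2)).add (hmom.const_mul (2 * L1 ^ 2)))
    (hf.continuous.pow 2).measurable.aestronglyMeasurable (Eventually.of_forall fun x => ?_)
  rw [Real.norm_eq_abs, abs_of_nonneg (sq_nonneg _)]
  exact hf.sq_le x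

/-- **Second order Ehrhard inequality.** -/
theorem second_order {μ : Measure E} [IsProbabilityMeasure μ] (hμ : Ehr μ)
    (hmom : Integrable (fun x => ‖x‖ ^ 2) μ)
    (hw : Pot w D H δ M) (hδ : 0 < δ) (hM : 0 ≤ M) (hL2 : 0 ≤ L2)
    (hf : Fld f Df L1 L2) (hV : ∀ x u, -(H x (V x) u) = Df x u)
    (hq : Measurable fun x => Df x (V x))
    (hhalf : 1 / 2 ≤ ∫ x, Phi (w x) ∂μ) :
    0 ≤ ∫ x, (w x * f x ^ 2 + Df x (V x)) * phi (w x) ∂μ := by
  obtain ⟨R, hR0, hR⟩ := midpoint hw hδ hM hL2 hf hV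
  set q : E → ℝ := fun x => Df x (V x) with hqdef
  have hq0 : ∀ x, 0 ≤ q x := q_nonneg hw hδ hV
  have hq1 : ∀ x, q x ≤ L1 * (L1 / δ) := q_le hw hδ hf hV
  have mPhi : Measurable Phi := continuous_Phi.measurable
  have mw := hw.continuous.measurable
  have mf := hf.continuous.measurable
  have ui : ∀ {g : E → ℝ}, Measurable g → UI (fun x => Phi (g x)) := fun hg =>
    ⟨mPhi.comp hg, fun x => Phi_nonneg _, fun x => Phi_le_one _⟩
  -- the inequality for each `t`
  have main : ∀ t : ℝ, 0 < t →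
      (∫ x, Phi (w x + t * f x - t ^ 2 / 2 * q x) ∂μ)
      + (∫ x, Phi (w x - t * f x - t ^ 2 / 2 * q x) ∂μ)
      ≤ 2 * (∫ x, Phi (w x) ∂μ) + 2 * R * t ^ 3 := by
    intro t ht
    have u1 : UI (fun x => Phi (w x + t * f x - t ^ 2 / 2 * q x)) := ui (by fun_prop)
    have u2 : UI (fun x => Phi (w x - t * f x - t ^ 2 / 2 * q x)) := ui (by fun_prop)
    have u3 : UI (fun x => Phi (w x + R * t ^ 3)) := ui (by fun_prop)
    have H := hμ (1 / 2) (1 / 2) (by norm_num) (by norm_num) (by norm_num) _ _ _ u1 u2 u3 ?_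
    · have mono : ∫ x, Phi (w x) ∂μ ≤ ∫ x, Phi (w x + R * t ^ 3) ∂μ := by
        apply integral_mono ((ui mw).integrable μ) (u3.integrable μ)
        intro x
        apply strictMono_Phi.monotone
        have : 0 ≤ R * t ^ 3 := by positivity
        linarith
      have up : ∫ x, Phi (w x + R * t ^ 3) ∂μ ≤ (∫ x, Phi (w x) ∂μ) + R * t ^ 3 := by
        have : ∫ x, Phi (w x + R * t ^ 3) ∂μ ≤ ∫ x, (Phi (w x) + R * t ^ 3) ∂μ := by
          apply integral_mono (u3.integrable μ) (((ui mw).integrable μ).add (integrable_const _))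
          intro x
          have h := Phi_lip (w x) (w x + R * t ^ 3)
          rw [add_sub_cancel_left, abs_of_nonneg (by positivity : 0 ≤ R * t ^ 3)] at h
          have := (abs_le.mp h).2
          show Phi (w x + R * t ^ 3) ≤ Phi (w x) + R * t ^ 3
          linarith
        rwa [integral_add ((ui mw).integrable μ) (integrable_const _), integral_const,
          probReal_univ, one_smul] at this
      have b : ∀ {g : E → ℝ}, UI g → 0 ≤ ∫ x, g x ∂μ ∧ ∫ x, g x ∂μ ≤ 1 := by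
        intro g hg
        refine ⟨integral_nonneg hg.nonneg, ?_⟩
        calc ∫ x, g x ∂μ ≤ ∫ _x, (1:ℝ) ∂μ :=
              integral_mono (hg.integrable μ) (integrable_const _) hg.le_one
          _ = 1 := by simp
      have := (midpoint_le (b u1).1 (b u1).2 (b u2).1 (b u2).2 (b u3).1 (b u3).2 H).1
        (hhalf.trans mono)
      linarith
    · intro x y s r hs hr
      have hs' : s ≤ w x + t * f x - t ^ 2 / 2 * q x := strictMono_Phi.le_iff_le.mp hs
      have hr' : r ≤ w y - t * f y - t ^ 2 / 2 * q y := strictMono_Phi.le_iff_le.mp hr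
      apply strictMono_Phi.monotone
      have hmid := hR t ht.le ((1 / 2 : ℝ) • x + (1 / 2 : ℝ) • y) ((1 / 2 : ℝ) • x - (1 / 2 : ℝ) • y)
      have ex : (1 / 2 : ℝ) • x + (1 / 2 : ℝ) • y + ((1 / 2 : ℝ) • x - (1 / 2 : ℝ) • y) = x := by
        rw [show (1 / 2 : ℝ) • x + (1 / 2 : ℝ) • y + ((1 / 2 : ℝ) • x - (1 / 2 : ℝ) • y)
          = (1 / 2 : ℝ) • x + (1 / 2 : ℝ) • x by abel, ← add_smul]
        norm_num
      have ey : (1 / 2 : ℝ) • x + (1 / 2 : ℝ) • y - ((1 / 2 : ℝ) • x - (1 / 2 : ℝ) • y) = y := by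
        rw [show (1 / 2 : ℝ) • x + (1 / 2 : ℝ) • y - ((1 / 2 : ℝ) • x - (1 / 2 : ℝ) • y)
          = (1 / 2 : ℝ) • y + (1 / 2 : ℝ) • y by abel, ← add_smul]
        norm_num
      rw [ex, ey] at hmid
      simp only [hqdef] at hs' hr'
      linarith
  -- the quotient
  have hneg : Tendsto (fun t : ℝ => ∫ x, (Phi (w x + t * f x - t ^ 2 / 2 * q x)
      + Phi (w x - t * f x - t ^ 2 / 2 * q x) - 2 * Phi (w x)) / t ^ 2 ∂μ) (𝓝[>] 0)
      (𝓝 (∫ x, -((w x * f x ^ 2 + q x) * phi (w x)) ∂μ)) := by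
    refine tendsto_integral_filter_of_dominated_convergence
      (fun x => q x + 4 * f x ^ 2 + q x ^ 2) ?_ ?_ ?_ ?_
    · filter_upwards with t
      apply Measurable.aestronglyMeasurable
      fun_prop
    · filter_upwards [Ioc_mem_nhdsGT (zero_lt_one (α := ℝ))] with t ht
      filter_upwards with x
      rw [Real.norm_eq_abs]
      exact quot_bound (w x) (f x) (q x) t (hq0 x) ht.1 ht.2
    · have bq : ∀ x, ‖q x‖ ≤ L1 * (L1 / δ) := fun x => by
        rw [Real.norm_eq_abs, abs_of_nonneg (hq0 x)]; exact hq1 x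
      have iq : Integrable q μ := Integrable.of_bound hq.aestronglyMeasurable _
        (Eventually.of_forall bq)
      have iq2 : Integrable (fun x => q x ^ 2) μ := Integrable.of_bound
        (hq.pow_const 2).aestronglyMeasurable ((L1 * (L1 / δ)) ^ 2)
        (Eventually.of_forall fun x => by
          rw [norm_pow]; have := bq x; gcongr)
      exact (iq.add ((hf.integrable_sq hmom).const_mul 4)).add iq2
    · filter_upwards with x
      exact quot_tendsto (w x) (f x) (q x)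
  have hle : ∀ᶠ t : ℝ in 𝓝[>] 0, (∫ x, (Phi (w x + t * f x - t ^ 2 / 2 * q x)
      + Phi (w x - t * f x - t ^ 2 / 2 * q x) - 2 * Phi (w x)) / t ^ 2 ∂μ) ≤ 2 * R * t := by
    filter_upwards [self_mem_nhdsWithin] with t ht
    have ht' : (0:ℝ) < t := ht
    have u1 : UI (fun x => Phi (w x + t * f x - t ^ 2 / 2 * q x)) := ui (by fun_prop)
    have u2 : UI (fun x => Phi (w x - t * f x - t ^ 2 / 2 * q x)) := ui (by fun_prop)
    have i12 : Integrable (fun x => Phi (w x + t * f x - t ^ 2 / 2 * q x)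
        + Phi (w x - t * f x - t ^ 2 / 2 * q x)) μ := (u1.integrable μ).add (u2.integrable μ)
    rw [integral_div, integral_sub i12 (((ui mw).integrable μ).const_mul 2), integral_add (u1.integrable μ) (u2.integrable μ),
      integral_const_mul, div_le_iff₀ (by positivity)]
    have := main t ht'
    nlinarith
  have hlim : Tendsto (fun t : ℝ => 2 * R * t) (𝓝[>] 0) (𝓝 0) := by
    have : Tendsto (fun t : ℝ => 2 * R * t) (𝓝 0) (𝓝 (2 * R * 0)) := tendsto_id.const_mul _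
    rw [mul_zero] at this
    exact this.mono_left nhdsWithin_le_nhds
  have := le_of_tendsto_of_tendsto hneg hlim hle
  rw [integral_neg] at this
  linarith

end

end Vale.Agent.P262.EB2
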