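import Vale.Agent.P262.EB.Step3

/-! # Ehrhard's inequality for bounded smooth functions -/

open MeasureTheory ProbabilityTheory Set Filter Topology

namespace Vale.Agent.P262.EB

noncomputable section

set_option linter.unusedSectionVars false

variable {E : Type*} [NormedAddCommGroup E] [NormedSpace ℝ E]
variable [MeasurableSpace E] [BorelSpace E] [SecondCountableTopology E]

/-- stability of the measure under orthogonal mixing -/
def Stable (γ : Measure E) : Prop :=
  ∀ s t : ℝ, 0 ≤ s → 0 ≤ t → ∀ g : E → ℝ, Continuous g → (∃ C, ∀ x, |g x| ≤ C) →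
    ∫ z, ∫ z', g (s • z + t • z') ∂γ ∂γ = ∫ z, g (Real.sqrt (s ^ 2 + t ^ 2) • z) ∂γ

/-- second order regularity of `f` -/
structure RegF (L K : ℝ) (f : E → ℝ) : Prop where
  lip : ∀ x y, |f x - f y| ≤ L * ‖x - y‖
  der : ∃ p : E → (E →L[ℝ] ℝ), Continuous p ∧ (∀ x, ‖p x‖ ≤ L) ∧
    ∀ x u, |f (x + u) - f x - p x u| ≤ K * ‖u‖ ^ 2

variable {γ : Measure E} [IsProbabilityMeasure γ]

/-- averaging preserves regularity -/
lemma RegF.avg {L K B : ℝ} {f : E → ℝ} (hf : RegF L K f) (hB : ∀ x, |f x| ≤ B) (s : ℝ) :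
    RegF L K (fun x => ∫ z, f (x + s • z) ∂γ) := by
  have hfc : Continuous f := continuous_of_lip hf.lip
  have hi : ∀ x, Integrable (fun z => f (x + s • z)) γ := fun x =>
    integrable_of_bound (hfc.comp (by fun_prop)).measurable (fun z => hB _)
  obtain ⟨p, hpc, hpL, hp⟩ := hf.der
  have hpi : ∀ x, Integrable (fun z => p (x + s • z)) γ := fun x =>
    Integrable.of_bound (hpc.comp (by fun_prop)).aestronglyMeasurable L
      (Eventually.of_forall fun z => hpL _)
  constructor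
  · intro x y
    have e : (∫ z, f (x + s • z) ∂γ) - ∫ z, f (y + s • z) ∂γ
        = ∫ z, (f (x + s • z) - f (y + s • z)) ∂γ := (integral_sub (hi x) (hi y)).symm
    rw [e]
    refine abs_integral_le_of_bound fun z => ?_
    refine (hf.lip _ _).trans ?_
    rw [add_sub_add_right_eq_sub]
  · refine ⟨fun x => ∫ z, p (x + s • z) ∂γ, ?_, ?_, ?_⟩
    · refine continuous_of_dominated (bound := fun _ => L) (fun x => (hpi x).aestronglyMeasurable)
        (fun x => Eventually.of_forall fun z => hpL _) (integrable_const _)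
        (Eventually.of_forall fun z => hpc.comp (by fun_prop))
    · intro x
      have := norm_integral_le_of_norm_le_const (μ := γ) (f := fun z => p (x + s • z)) (C := L)
        (Eventually.of_forall fun z => hpL _)
      simpa using this
    · intro x u
      have e : (∫ z, f (x + u + s • z) ∂γ) - (∫ z, f (x + s • z) ∂γ)
          - (∫ z, p (x + s • z) ∂γ) u
          = ∫ z, (f (x + u + s • z) - f (x + s • z) - p (x + s • z) u) ∂γ := by
        have i2 : Integrable (fun z => p (x + s • z) u) γ :=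
          (ContinuousLinearMap.integrable_comp (ContinuousLinearMap.apply ℝ ℝ u) (hpi x))
        have e1 : ∫ z, (f (x + u + s • z) - f (x + s • z) - p (x + s • z) u) ∂γ
            = ∫ z, (f (x + u + s • z) - f (x + s • z)) ∂γ - ∫ z, p (x + s • z) u ∂γ :=
          integral_sub ((hi _).sub (hi _)) i2
        have e2 : ∫ z, (f (x + u + s • z) - f (x + s • z)) ∂γ
            = (∫ z, f (x + u + s • z) ∂γ) - ∫ z, f (x + s • z) ∂γ := integral_sub (hi _) (hi _)
        rw [e1, e2, ContinuousLinearMap.integral_apply (hpi x)]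
      simp only
      rw [e]
      refine abs_integral_le_of_bound fun z => ?_
      have := hp (x + s • z) u
      have e3 : x + s • z + u = x + u + s • z := by abel
      rw [e3] at this
      exact this

/-- from `Phi ∘ V` to `V` -/
lemma reg_of_regF {B L K : ℝ} {V : E → ℝ} (hB : ∀ x, |V x| ≤ B) (hL : 0 ≤ L) (hK : 0 ≤ K)
    (hV : RegF L K (fun x => Phi (V x))) :
    Reg B (L / phi B) ((K + (L / phi B) ^ 2) / phi B) V := by
  have hφ := phi_pos B
  have hlip : ∀ x y, |V x - V y| ≤ L / phi B * ‖x - y‖ := by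
    intro x y
    have h1 := Phi_expand (hB y) (hB x)
    have h2 := hV.lip x y
    rw [div_mul_eq_mul_div, le_div_iff₀ hφ]
    calc |V x - V y| * phi B = phi B * |V x - V y| := mul_comm _ _
      _ ≤ _ := h1.trans h2
  obtain ⟨p, -, hpL, hp⟩ := hV.der
  refine ⟨hB, hlip, fun x => (phi (V x))⁻¹ • p x, ?_, ?_⟩
  · intro x
    have h1 := phi_anti (hB x)
    have h2 : 0 < phi (V x) := phi_pos _
    rw [norm_smul, Real.norm_eq_abs, abs_of_pos (inv_pos.2 h2), inv_mul_eq_div]
    exact div_le_div₀ hL (hpL x) hφ h1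
  · intro x u
    have h1 := phi_anti (hB x)
    have h2 : 0 < phi (V x) := phi_pos _
    have t1 := Phi_taylor1 (V x) (V (x + u))
    have t2 := hp x u
    have t3 : (V (x + u) - V x) ^ 2 ≤ (L / phi B) ^ 2 * ‖u‖ ^ 2 := by
      have := hlip (x + u) x
      rw [add_sub_cancel_left] at this
      rw [← sq_abs, ← mul_pow]
      exact pow_le_pow_left₀ (abs_nonneg _) this 2
    have t4 : |phi (V x) * (V (x + u) - V x) - p x u| ≤ (K + (L / phi B) ^ 2) * ‖u‖ ^ 2 := by
      rw [abs_le] at t1 t2 ⊢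
      constructor <;> nlinarith [t1.1, t1.2, t2.1, t2.2]
    have e : V (x + u) - V x - ((phi (V x))⁻¹ • p x) u
        = (phi (V x) * (V (x + u) - V x) - p x u) / phi (V x) := by
      simp only [ContinuousLinearMap.smul_apply, smul_eq_mul]
      field_simp
    rw [e, abs_div, abs_of_pos h2, div_le_iff₀ h2]
    refine t4.trans ?_
    have h5 : 0 ≤ (K + (L / phi B) ^ 2) / phi B * ‖u‖ ^ 2 := by positivity
    calc (K + (L / phi B) ^ 2) * ‖u‖ ^ 2
        = (K + (L / phi B) ^ 2) / phi B * ‖u‖ ^ 2 * phi B := by field_simp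
      _ ≤ _ := mul_le_mul_of_nonneg_left h1 h5

/-- the nonlinear semigroup -/
def U (γ : Measure E) (s : ℝ) (V : E → ℝ) (x : E) : ℝ := PhiInv (∫ z, Phi (V (x + s • z)) ∂γ)

lemma Phi_U {B : ℝ} {V : E → ℝ} (hV : Continuous V) (hB : ∀ x, |V x| ≤ B) (s : ℝ) (x : E) :
    Phi (U γ s V x) = ∫ z, Phi (V (x + s • z)) ∂γ := by
  obtain ⟨h1, h2⟩ := int_Phi_mem (γ := γ) (w := fun z => V (x + s • z))
    (hV.comp (by fun_prop)).measurable (fun z => hB _)
  exact Phi_PhiInv (lt_of_lt_of_le (Phi_pos _) h1) (lt_of_le_of_lt h2 (Phi_lt_one _))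

lemma U_bdd {B : ℝ} {V : E → ℝ} (hV : Continuous V) (hB : ∀ x, |V x| ≤ B) (s : ℝ) (x : E) :
    |U γ s V x| ≤ B := by
  obtain ⟨h1, h2⟩ := int_Phi_mem (γ := γ) (w := fun z => V (x + s • z))
    (hV.comp (by fun_prop)).measurable (fun z => hB _)
  rw [← Phi_U (γ := γ) hV hB s x] at h1 h2
  rw [abs_le]
  exact ⟨strictMono_Phi.le_iff_le.1 h1, strictMono_Phi.le_iff_le.1 h2⟩

lemma U_zero (V : E → ℝ) (x : E) : U γ 0 V x = V x := by
  simp [U, PhiInv_Phi]

lemma U_regF {B L K : ℝ} {V : E → ℝ} (hB : ∀ x, |V x| ≤ B)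
    (hc : Continuous V) (hV : RegF L K (fun x => Phi (V x))) (s : ℝ) :
    RegF L K (fun x => Phi (U γ s V x)) := by
  have h := hV.avg (γ := γ) (B := 1) (fun x => by
    rw [abs_of_pos (Phi_pos _)]; exact (Phi_lt_one _).le) s
  have e : (fun x => Phi (U γ s V x)) = fun x => ∫ z, Phi (V (x + s • z)) ∂γ :=
    funext fun x => Phi_U hc hB s x
  rw [e]; exact h

lemma U_step {B : ℝ} (hst : Stable γ) {V : E → ℝ} (hV : Continuous V) (hB : ∀ x, |V x| ≤ B)
    {s η : ℝ} (hs : 0 ≤ s) (hη : 0 ≤ η) (x : E) :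
    PhiInv (∫ z, Phi (U γ s V (x + η • z)) ∂γ) = U γ (Real.sqrt (η ^ 2 + s ^ 2)) V x := by
  have e : ∀ z, Phi (U γ s V (x + η • z)) = ∫ z', Phi (V (x + (η • z + s • z'))) ∂γ := by
    intro z
    rw [Phi_U hV hB]
    congr 1; ext z'; rw [add_assoc]
  simp_rw [e]
  have := hst η s hη hs (fun w => Phi (V (x + w)))
    (continuous_Phi.comp (hV.comp (by fun_prop)))
    ⟨1, fun w => by rw [abs_of_pos (Phi_pos _)]; exact (Phi_lt_one _).le⟩
  rw [this]
  rfl

/-- **Ehrhard's inequality for smooth bounded functions.** -/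
theorem ehrhard_smooth {a b B L K : ℝ} (ha : 0 < a) (hb : 0 < b) (hab : a + b = 1)
    (hL : 0 ≤ L) (hK : 0 ≤ K)
    (hM : Integrable (fun z : E => (1 + ‖z‖) ^ 4) γ) (hst : Stable γ)
    {Vf Vg Vh : E → ℝ} (hfB : ∀ x, |Vf x| ≤ B) (hgB : ∀ x, |Vg x| ≤ B) (hhB : ∀ x, |Vh x| ≤ B)
    (hfc : Continuous Vf) (hgc : Continuous Vg) (hhc : Continuous Vh)
    (hf : RegF L K (fun x => Phi (Vf x))) (hg : RegF L K (fun x => Phi (Vg x)))
    (hh : RegF L K (fun x => Phi (Vh x)))
    (h3 : ∀ x y, a * Vf x + b * Vg y ≤ Vh (a • x + b • y)) :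
    a * PhiInv (∫ z, Phi (Vf z) ∂γ) + b * PhiInv (∫ z, Phi (Vg z) ∂γ)
      ≤ PhiInv (∫ z, Phi (Vh z) ∂γ) := by
  have hB : 0 ≤ B := le_trans (abs_nonneg _) (hfB 0)
  have hφ := phi_pos B
  obtain ⟨C, hC, η0, hη0, hstep⟩ := step (γ := γ) ha hb hab hB
    (L := L / phi B) (K := (K + (L / phi B) ^ 2) / phi B) (by positivity) (by positivity) hM
  -- regularity along the flow
  have reg : ∀ {V : E → ℝ}, (∀ x, |V x| ≤ B) → Continuous V →
      RegF L K (fun x => Phi (V x)) → ∀ s, Reg B (L / phi B) ((K + (L / phi B) ^ 2) / phi B)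
        (U γ s V) := by
    intro V hVB hVc hV s
    exact reg_of_regF (U_bdd hVc hVB s) hL hK (U_regF hVB hVc hV s)
  -- the induction
  have ind : ∀ n : ℕ, ∀ η : ℝ, 0 ≤ η → η ≤ η0 → C * (n * η ^ 3) ≤ 1 → ∀ k : ℕ, k ≤ n →
      ∀ x y, a * U γ (Real.sqrt k * η) Vf x + b * U γ (Real.sqrt k * η) Vg y - C * (k * η ^ 3)
        ≤ U γ (Real.sqrt k * η) Vh (a • x + b • y) := by
    intro n η hη hηη hn k
    induction k with
    | zero =>
      intro _ x y
      have := h3 x y
      simpa [U_zero] using this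
    | succ k ih =>
      intro hk x y
      have ihk := ih (by omega)
      have hkn : (k : ℝ) ≤ n := by exact_mod_cast (by omega : k ≤ n)
      have h1 : C * (k * η ^ 3) ≤ 1 := by
        refine le_trans ?_ hn
        gcongr
      have hs := hstep _ _ _ (reg hfB hfc hf (Real.sqrt k * η)) (reg hgB hgc hg (Real.sqrt k * η))
        (U_bdd hhc hhB (Real.sqrt k * η))
        (continuous_of_lip (reg hhB hhc hh (Real.sqrt k * η)).lip).measurable
        (C * (k * η ^ 3)) (by positivity) h1 ihk η hη hηη x y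
      have hsk : 0 ≤ Real.sqrt k * η := by positivity
      rw [U_step hst hfc hfB hsk hη, U_step hst hgc hgB hsk hη, U_step hst hhc hhB hsk hη] at hs
      have e : Real.sqrt (η ^ 2 + (Real.sqrt k * η) ^ 2) = Real.sqrt ((k + 1 : ℕ) : ℝ) * η := by
        have : η ^ 2 + (Real.sqrt k * η) ^ 2 = ((k + 1 : ℕ) : ℝ) * η ^ 2 := by
          rw [mul_pow, Real.sq_sqrt (Nat.cast_nonneg k)]; push_cast; ring
        rw [this, Real.sqrt_mul (Nat.cast_nonneg _), Real.sqrt_sq hη]
      rw [e] at hs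
      have e2 : C * (k * η ^ 3) + C * η ^ 3 = C * (((k + 1 : ℕ) : ℝ) * η ^ 3) := by
        push_cast; ring
      rw [e2] at hs
      exact hs
  -- conclusion for every large n
  have fin : ∀ n : ℕ, 0 < n → 1 / Real.sqrt n ≤ η0 → C / Real.sqrt n ≤ 1 →
      a * U γ 1 Vf 0 + b * U γ 1 Vg 0 - C / Real.sqrt n ≤ U γ 1 Vh 0 := by
    intro n hn h1 h2
    have hn' : (0 : ℝ) < n := by exact_mod_cast hn
    have hsn : 0 < Real.sqrt n := Real.sqrt_pos.2 hn'
    have hcube : (n : ℝ) * (1 / Real.sqrt n) ^ 3 = 1 / Real.sqrt n := by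
      have : (n : ℝ) = Real.sqrt n * Real.sqrt n := (Real.mul_self_sqrt hn'.le).symm
      rw [div_pow, one_pow]
      nth_rw 1 [this]
      field_simp
    have hC1 : C * (n * (1 / Real.sqrt n) ^ 3) = C / Real.sqrt n := by rw [hcube]; ring
    have := ind n (1 / Real.sqrt n) (by positivity) h1 (by rw [hC1]; exact h2) n le_rfl 0 0
    rw [hC1] at this
    have e : Real.sqrt n * (1 / Real.sqrt n) = 1 := by field_simp
    rw [e] at this
    simpa using this
  have hlim : Tendsto (fun n : ℕ => a * U γ 1 Vf 0 + b * U γ 1 Vg 0 - C / Real.sqrt n) atTop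
      (𝓝 (a * U γ 1 Vf 0 + b * U γ 1 Vg 0 - 0)) := by
    refine tendsto_const_nhds.sub ?_
    exact tendsto_const_nhds.div_atTop (Real.tendsto_sqrt_atTop.comp tendsto_natCast_atTop_atTop)
  rw [sub_zero] at hlim
  have hmain : a * U γ 1 Vf 0 + b * U γ 1 Vg 0 ≤ U γ 1 Vh 0 := by
    refine le_of_tendsto hlim ?_
    have hz : Tendsto (fun n : ℕ => 1 / Real.sqrt n) atTop (𝓝 0) :=
      tendsto_const_nhds.div_atTop (Real.tendsto_sqrt_atTop.comp tendsto_natCast_atTop_atTop)
    have hz2 : Tendsto (fun n : ℕ => C / Real.sqrt n) atTop (𝓝 0) :=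
      tendsto_const_nhds.div_atTop (Real.tendsto_sqrt_atTop.comp tendsto_natCast_atTop_atTop)
    filter_upwards [eventually_gt_atTop 0, hz.eventually (ge_mem_nhds hη0),
      hz2.eventually (ge_mem_nhds one_pos)] with n h1 h2 h3
    exact fin n h1 h2 h3
  simpa [U] using hmain

end

end Vale.Agent.P262.EB
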