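import Vale.Agent.P262.EB.Exp

/-! # One small Gaussian step preserves the three-function inequality up to `O(η^3)` -/

open MeasureTheory ProbabilityTheory Set Filter Topology

namespace Vale.Agent.P262.EB

noncomputable section

set_option linter.unusedSectionVars false

variable {E : Type*} [NormedAddCommGroup E] [NormedSpace ℝ E]

/-- bounded, Lipschitz, with a second order bound -/
structure Reg (B L K : ℝ) (V : E → ℝ) : Prop where
  bdd : ∀ x, |V x| ≤ B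
  lip : ∀ x y, |V x - V y| ≤ L * ‖x - y‖
  der : ∃ p : E → (E →L[ℝ] ℝ), (∀ x, ‖p x‖ ≤ L) ∧
    ∀ x u, |V (x + u) - V x - p x u| ≤ K * ‖u‖ ^ 2

lemma continuous_of_lip {V : E → ℝ} {L : ℝ} (h : ∀ x y, |V x - V y| ≤ L * ‖x - y‖) :
    Continuous V := by
  have : LipschitzWith (Real.toNNReal L) V := by
    refine LipschitzWith.of_dist_le_mul fun x y => ?_
    rw [Real.dist_eq, dist_eq_norm]
    refine (h x y).trans ?_
    exact mul_le_mul_of_nonneg_right (Real.le_coe_toNNReal L) (norm_nonneg _)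
  exact this.continuous

variable [MeasurableSpace E] [BorelSpace E] [SecondCountableTopology E]
  {γ : Measure E} [IsProbabilityMeasure γ]

/-- the fourth moment of `1 + ‖z‖` -/
def mom (γ : Measure E) : ℝ := ∫ z, (1 + ‖z‖) ^ 4 ∂γ

lemma integrable_pow_of_le {k : ℕ} (hk : k ≤ 4) (hM : Integrable (fun z : E => (1 + ‖z‖) ^ 4) γ) :
    Integrable (fun z : E => (1 + ‖z‖) ^ k) γ := by
  refine hM.mono' (by fun_prop) (Eventually.of_forall fun z => ?_)
  have h1 : (1 : ℝ) ≤ 1 + ‖z‖ := by linarith [norm_nonneg z]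
  rw [Real.norm_eq_abs, abs_of_nonneg (by positivity)]
  exact pow_le_pow_right₀ h1 hk

lemma integral_pow_le_mom {k : ℕ} (hk : k ≤ 4)
    (hM : Integrable (fun z : E => (1 + ‖z‖) ^ 4) γ) :
    ∫ z, (1 + ‖z‖) ^ k ∂γ ≤ mom γ := by
  refine integral_mono (integrable_pow_of_le hk hM) hM fun z => ?_
  have h1 : (1 : ℝ) ≤ 1 + ‖z‖ := by linarith [norm_nonneg z]
  exact pow_le_pow_right₀ h1 hk

lemma one_le_mom (hM : Integrable (fun z : E => (1 + ‖z‖) ^ 4) γ) : 1 ≤ mom γ := by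
  have := integral_pow_le_mom (k := 0) (by norm_num) hM
  simpa using this

lemma osc_bound {w : E → ℝ} {B ℓ : ℝ} (hℓ : 0 ≤ ℓ)
    (hM : Integrable (fun z : E => (1 + ‖z‖) ^ 4) γ)
    (hB : ∀ z, |w z| ≤ B) (hw : ∀ z z', |w z - w z'| ≤ ℓ * ‖z - z'‖) (z : E) :
    |w z - ∫ z', w z' ∂γ| ≤ 2 * mom γ * ℓ * (1 + ‖z‖) := by
  have hc : Continuous w := continuous_of_lip hw
  have hi : Integrable w γ := integrable_of_bound hc.measurable hB
  have e : w z - ∫ z', w z' ∂γ = ∫ z', (w z - w z') ∂γ := by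
    rw [integral_sub (integrable_const _) hi]; simp
  rw [e, ← Real.norm_eq_abs]
  have h1 := integrable_pow_of_le (k := 1) (by norm_num) hM
  have i2 : Integrable (fun z' : E => ℓ * ((1 + ‖z‖) + (1 + ‖z'‖) ^ 1)) γ :=
    ((integrable_const _).add h1).const_mul _
  calc ‖∫ z', (w z - w z') ∂γ‖ ≤ ∫ z', ‖w z - w z'‖ ∂γ := norm_integral_le_integral_norm _
    _ ≤ ∫ z', ℓ * ((1 + ‖z‖) + (1 + ‖z'‖) ^ 1) ∂γ := by
        refine integral_mono_of_nonneg (Eventually.of_forall fun z' => norm_nonneg _) i2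
          (Eventually.of_forall fun z' => ?_)
        refine (hw z z').trans ?_
        refine mul_le_mul_of_nonneg_left ?_ hℓ
        have := norm_sub_le z z'
        simp only [pow_one]; linarith
    _ = ℓ * ((1 + ‖z‖) + ∫ z', (1 + ‖z'‖) ^ 1 ∂γ) := by
        rw [integral_const_mul, integral_add (integrable_const _) h1]; simp
    _ ≤ ℓ * ((1 + ‖z‖) + mom γ) := by
        have := integral_pow_le_mom (k := 1) (by norm_num) hM
        gcongr
    _ ≤ 2 * mom γ * ℓ * (1 + ‖z‖) := by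
        have hm := one_le_mom hM
        have hz := norm_nonneg z
        have : (1 + ‖z‖) + mom γ ≤ 2 * mom γ * (1 + ‖z‖) := by nlinarith
        calc _ ≤ ℓ * (2 * mom γ * (1 + ‖z‖)) := mul_le_mul_of_nonneg_left this hℓ
          _ = _ := by ring

/-- the constant in front of `η^3` -/
def T0 (γ : Measure E) (L : ℝ) : ℝ := 8 * mom γ ^ 4 * L ^ 3 + 16 * mom γ ^ 6 * L ^ 4

lemma var_bound {w : E → ℝ} {B L η : ℝ} (hL : 0 ≤ L) (hη : 0 ≤ η)
    (hM : Integrable (fun z : E => (1 + ‖z‖) ^ 4) γ)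
    (hB : ∀ z, |w z| ≤ B) (hw : ∀ z z', |w z - w z'| ≤ L * η * ‖z - z'‖) :
    ∫ z, (w z - ∫ z', w z' ∂γ) ^ 2 ∂γ ≤ 4 * mom γ ^ 3 * L ^ 2 * η ^ 2 := by
  have hm := one_le_mom hM
  have hosc := osc_bound (γ := γ) (mul_nonneg hL hη) hM hB hw
  have h2 := integrable_pow_of_le (k := 2) (by norm_num) hM
  have i2 : Integrable (fun z : E => (2 * mom γ * (L * η)) ^ 2 * (1 + ‖z‖) ^ 2) γ :=
    h2.const_mul _
  calc ∫ z, (w z - ∫ z', w z' ∂γ) ^ 2 ∂γ
      ≤ ∫ z, (2 * mom γ * (L * η)) ^ 2 * (1 + ‖z‖) ^ 2 ∂γ := by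
        refine integral_mono_of_nonneg (Eventually.of_forall fun z => sq_nonneg _) i2
          (Eventually.of_forall fun z => ?_)
        have := pow_le_pow_left₀ (abs_nonneg _) (hosc z) 2
        rw [sq_abs] at this
        simp only
        calc _ ≤ (2 * mom γ * (L * η) * (1 + ‖z‖)) ^ 2 := this
          _ = _ := by ring
    _ = (2 * mom γ * (L * η)) ^ 2 * ∫ z, (1 + ‖z‖) ^ 2 ∂γ := integral_const_mul _ _
    _ ≤ (2 * mom γ * (L * η)) ^ 2 * mom γ := by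
        have := integral_pow_le_mom (k := 2) (by norm_num) hM
        exact mul_le_mul_of_nonneg_left this (sq_nonneg _)
    _ = _ := by ring

lemma third_bound {w : E → ℝ} {B L η : ℝ} (hL : 0 ≤ L) (hη : 0 ≤ η)
    (hM : Integrable (fun z : E => (1 + ‖z‖) ^ 4) γ)
    (hB : ∀ z, |w z| ≤ B) (hw : ∀ z z', |w z - w z'| ≤ L * η * ‖z - z'‖) :
    ∫ z, |w z - ∫ z', w z' ∂γ| ^ 3 ∂γ ≤ 8 * mom γ ^ 4 * L ^ 3 * η ^ 3 := by
  have hm := one_le_mom hM
  have hosc := osc_bound (γ := γ) (mul_nonneg hL hη) hM hB hw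
  have h2 := integrable_pow_of_le (k := 3) (by norm_num) hM
  have i2 : Integrable (fun z : E => (2 * mom γ * (L * η)) ^ 3 * (1 + ‖z‖) ^ 3) γ :=
    h2.const_mul _
  calc ∫ z, |w z - ∫ z', w z' ∂γ| ^ 3 ∂γ
      ≤ ∫ z, (2 * mom γ * (L * η)) ^ 3 * (1 + ‖z‖) ^ 3 ∂γ := by
        refine integral_mono_of_nonneg (Eventually.of_forall fun z => by positivity) i2
          (Eventually.of_forall fun z => ?_)
        have := pow_le_pow_left₀ (abs_nonneg _) (hosc z) 3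
        simp only
        calc _ ≤ (2 * mom γ * (L * η) * (1 + ‖z‖)) ^ 3 := this
          _ = _ := by ring
    _ = (2 * mom γ * (L * η)) ^ 3 * ∫ z, (1 + ‖z‖) ^ 3 ∂γ := integral_const_mul _ _
    _ ≤ (2 * mom γ * (L * η)) ^ 3 * mom γ := by
        have := integral_pow_le_mom (k := 3) (by norm_num) hM
        exact mul_le_mul_of_nonneg_left this (by positivity)
    _ = _ := by ring

/-- expansion for Lipschitz functions of `η z` -/
theorem gexp {w : E → ℝ} {B L η : ℝ} (hL : 0 ≤ L) (hη : 0 ≤ η) (hη1 : η ≤ 1)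
    (hM : Integrable (fun z : E => (1 + ‖z‖) ^ 4) γ)
    (hB : ∀ z, |w z| ≤ B) (hw : ∀ z z', |w z - w z'| ≤ L * η * ‖z - z'‖)
    (hs : cE B ^ 2 * (T0 γ L * η ^ 3) ≤ 1) :
    Phi ((∫ z, w z ∂γ) - (∫ z, w z ∂γ) * (∫ z, (w z - ∫ z', w z' ∂γ) ^ 2 ∂γ) / 2
        - cE B * (T0 γ L * η ^ 3)) ≤ ∫ z, Phi (w z) ∂γ ∧
    ∫ z, Phi (w z) ∂γ ≤
      Phi ((∫ z, w z ∂γ) - (∫ z, w z ∂γ) * (∫ z, (w z - ∫ z', w z' ∂γ) ^ 2 ∂γ) / 2
        + cE B * (T0 γ L * η ^ 3)) := by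
  have hm := one_le_mom hM
  have hc : Continuous w := continuous_of_lip hw
  have h3 := third_bound (γ := γ) hL hη hM hB hw
  have h2 := var_bound (γ := γ) hL hη hM hB hw
  have hv0 : 0 ≤ ∫ z, (w z - ∫ z', w z' ∂γ) ^ 2 ∂γ := integral_nonneg fun z => sq_nonneg _
  refine exp_bounds (μ := γ) hc.measurable hB ?_ ?_ hs
  · refine h3.trans ?_
    unfold T0
    have : 0 ≤ 16 * mom γ ^ 6 * L ^ 4 * η ^ 3 := by positivity
    nlinarith
  · calc (∫ z, (w z - ∫ z', w z' ∂γ) ^ 2 ∂γ) ^ 2 ≤ (4 * mom γ ^ 3 * L ^ 2 * η ^ 2) ^ 2 :=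
        pow_le_pow_left₀ hv0 h2 2
      _ = 16 * mom γ ^ 6 * L ^ 4 * (η ^ 3 * η) := by ring
      _ ≤ 16 * mom γ ^ 6 * L ^ 4 * (η ^ 3 * 1) := by gcongr
      _ ≤ T0 γ L * η ^ 3 := by
        unfold T0
        have : 0 ≤ 8 * mom γ ^ 4 * L ^ 3 * η ^ 3 := by positivity
        nlinarith

lemma int_Phi_mem {w : E → ℝ} {B : ℝ} (hw : Measurable w) (hB : ∀ z, |w z| ≤ B) :
    Phi (-B) ≤ ∫ z, Phi (w z) ∂γ ∧ ∫ z, Phi (w z) ∂γ ≤ Phi B := by
  have h0 : Integrable (fun z => Phi (w z)) γ := by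
    refine integrable_of_bound (B := 1) (measurable_Phi.comp hw) fun ω => ?_
    rw [abs_of_pos (Phi_pos _)]; exact (Phi_lt_one _).le
  constructor
  · have := integral_mono (integrable_const (Phi (-B))) h0
      (fun z => strictMono_Phi.monotone (abs_le.1 (hB z)).1)
    simpa using this
  · have := integral_mono h0 (integrable_const (Phi B))
      (fun z => strictMono_Phi.monotone (abs_le.1 (hB z)).2)
    simpa using this

lemma PhiInv_int_le {w : E → ℝ} {B s : ℝ} (hw : Measurable w) (hB : ∀ z, |w z| ≤ B)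
    (h : ∫ z, Phi (w z) ∂γ ≤ Phi s) : PhiInv (∫ z, Phi (w z) ∂γ) ≤ s := by
  obtain ⟨h1, h2⟩ := int_Phi_mem (γ := γ) hw hB
  rw [PhiInv_le_iff (lt_of_lt_of_le (Phi_pos _) h1) (lt_of_le_of_lt h2 (Phi_lt_one _))]
  exact h

lemma le_PhiInv_int {w : E → ℝ} {B s : ℝ} (hw : Measurable w) (hB : ∀ z, |w z| ≤ B)
    (h : Phi s ≤ ∫ z, Phi (w z) ∂γ) : s ≤ PhiInv (∫ z, Phi (w z) ∂γ) := by
  obtain ⟨h1, h2⟩ := int_Phi_mem (γ := γ) hw hB
  rw [le_PhiInv_iff (lt_of_lt_of_le (Phi_pos _) h1) (lt_of_le_of_lt h2 (Phi_lt_one _))]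
  exact h

end

end Vale.Agent.P262.EB
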