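import Vale.Agent.P262.EB.Step

/-! # The step theorem -/

open MeasureTheory ProbabilityTheory Set Filter Topology

namespace Vale.Agent.P262.EB

noncomputable section

set_option linter.unusedSectionVars false

variable {E : Type*} [NormedAddCommGroup E] [NormedSpace ℝ E]
variable [MeasurableSpace E] [BorelSpace E] [SecondCountableTopology E]
  {γ : Measure E} [IsProbabilityMeasure γ]

/-- difference of variances of two functions which differ by little -/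
lemma var_diff {X Y : E → ℝ} {B L η D : ℝ} (hL : 0 ≤ L) (hη : 0 ≤ η) (hD : 0 ≤ D)
    (hM : Integrable (fun z : E => (1 + ‖z‖) ^ 4) γ)
    (hX : ∀ z, |X z| ≤ B) (hX' : ∀ z z', |X z - X z'| ≤ L * η * ‖z - z'‖)
    (hY : ∀ z, |Y z| ≤ B) (hY' : ∀ z z', |Y z - Y z'| ≤ L * η * ‖z - z'‖)
    (c0 : ℝ) (hXY : ∀ z, |X z - Y z - c0| ≤ D * η ^ 2 * (1 + ‖z‖) ^ 2) :
    |∫ z, (X z - ∫ z', X z' ∂γ) ^ 2 ∂γ - ∫ z, (Y z - ∫ z', Y z' ∂γ) ^ 2 ∂γ|
      ≤ 8 * mom γ ^ 3 * L * D * η ^ 3 := by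
  have hm := one_le_mom hM
  have hXc : Continuous X := continuous_of_lip hX'
  have hYc : Continuous Y := continuous_of_lip hY'
  have hXi : Integrable X γ := integrable_of_bound hXc.measurable hX
  have hYi : Integrable Y γ := integrable_of_bound hYc.measurable hY
  have oX := osc_bound (γ := γ) (mul_nonneg hL hη) hM hX hX'
  have oY := osc_bound (γ := γ) (mul_nonneg hL hη) hM hY hY'
  set cX := ∫ z', X z' ∂γ with hcX
  set cY := ∫ z', Y z' ∂γ with hcY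
  have hB0 : 0 ≤ B := le_trans (abs_nonneg _) (hX 0)
  have hcXB : |cX| ≤ B := abs_integral_le_of_bound hX
  have hcYB : |cY| ≤ B := abs_integral_le_of_bound hY
  have iX : Integrable (fun z => (X z - cX) ^ 2) γ := by
    refine integrable_of_bound (B := (2 * B) ^ 2) ((hXc.measurable.sub_const cX).pow_const 2)
      fun ω => ?_
    rw [abs_pow]
    refine pow_le_pow_left₀ (abs_nonneg _) ?_ 2
    have := abs_sub (X ω) cX
    linarith [hX ω]
  have iY : Integrable (fun z => (Y z - cY) ^ 2) γ := by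
    refine integrable_of_bound (B := (2 * B) ^ 2) ((hYc.measurable.sub_const cY).pow_const 2)
      fun ω => ?_
    rw [abs_pow]
    refine pow_le_pow_left₀ (abs_nonneg _) ?_ 2
    have := abs_sub (Y ω) cY
    linarith [hY ω]
  -- the difference of the means
  have hmean : |cX - cY - c0| ≤ D * η ^ 2 * mom γ := by
    have e : cX - cY - c0 = ∫ z, (X z - Y z - c0) ∂γ := by
      have e1 : ∫ z, (X z - Y z - c0) ∂γ = ∫ z, (X z - Y z) ∂γ - ∫ _z, c0 ∂γ :=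
        integral_sub (hXi.sub hYi) (integrable_const _)
      have e2 : ∫ z, (X z - Y z) ∂γ = cX - cY := integral_sub hXi hYi
      rw [e1, e2]; simp
    rw [e, ← Real.norm_eq_abs]
    have h2 := integrable_pow_of_le (k := 2) (by norm_num) hM
    have i2 : Integrable (fun z : E => D * η ^ 2 * (1 + ‖z‖) ^ 2) γ := h2.const_mul _
    calc _ ≤ ∫ z, ‖X z - Y z - c0‖ ∂γ := norm_integral_le_integral_norm _
      _ ≤ ∫ z, D * η ^ 2 * (1 + ‖z‖) ^ 2 ∂γ :=
          integral_mono_of_nonneg (Eventually.of_forall fun z => norm_nonneg _) i2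
            (Eventually.of_forall fun z => hXY z)
      _ = D * η ^ 2 * ∫ z, (1 + ‖z‖) ^ 2 ∂γ := integral_const_mul _ _
      _ ≤ _ := by
          have := integral_pow_le_mom (k := 2) (by norm_num) hM
          exact mul_le_mul_of_nonneg_left this (by positivity)
  have hpt : ∀ z, |(X z - cX) ^ 2 - (Y z - cY) ^ 2|
      ≤ 8 * mom γ ^ 2 * L * D * η ^ 3 * (1 + ‖z‖) ^ 3 := by
    intro z
    have e : (X z - cX) ^ 2 - (Y z - cY) ^ 2
        = ((X z - Y z - c0) - (cX - cY - c0)) * ((X z - cX) + (Y z - cY)) := by ring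
    rw [e, abs_mul]
    have hq : 1 ≤ 1 + ‖z‖ := by linarith [norm_nonneg z]
    have h1 : |(X z - Y z - c0) - (cX - cY - c0)| ≤ 2 * mom γ * D * η ^ 2 * (1 + ‖z‖) ^ 2 := by
      refine (abs_sub _ _).trans ?_
      have a1 := hXY z
      have : D * η ^ 2 * (1 + ‖z‖) ^ 2 + D * η ^ 2 * mom γ
          ≤ 2 * mom γ * D * η ^ 2 * (1 + ‖z‖) ^ 2 := by
        have hq2 : 1 ≤ (1 + ‖z‖) ^ 2 := one_le_pow₀ hq
        have h0 : 0 ≤ D * η ^ 2 := by positivity
        have : (1 + ‖z‖) ^ 2 + mom γ ≤ 2 * mom γ * (1 + ‖z‖) ^ 2 := by nlinarith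
        calc _ = D * η ^ 2 * ((1 + ‖z‖) ^ 2 + mom γ) := by ring
          _ ≤ D * η ^ 2 * (2 * mom γ * (1 + ‖z‖) ^ 2) := mul_le_mul_of_nonneg_left this h0
          _ = _ := by ring
      linarith
    have h2 : |(X z - cX) + (Y z - cY)| ≤ 4 * mom γ * (L * η) * (1 + ‖z‖) := by
      refine (abs_add_le _ _).trans ?_
      have := oX z
      have := oY z
      linarith
    calc _ ≤ (2 * mom γ * D * η ^ 2 * (1 + ‖z‖) ^ 2) * (4 * mom γ * (L * η) * (1 + ‖z‖)) :=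
          mul_le_mul h1 h2 (abs_nonneg _) (by positivity)
      _ = _ := by ring
  have e : ∫ z, (X z - cX) ^ 2 ∂γ - ∫ z, (Y z - cY) ^ 2 ∂γ
      = ∫ z, ((X z - cX) ^ 2 - (Y z - cY) ^ 2) ∂γ := (integral_sub iX iY).symm
  rw [e, ← Real.norm_eq_abs]
  have h3 := integrable_pow_of_le (k := 3) (by norm_num) hM
  have i3 : Integrable (fun z : E => 8 * mom γ ^ 2 * L * D * η ^ 3 * (1 + ‖z‖) ^ 3) γ :=
    h3.const_mul _
  calc _ ≤ ∫ z, ‖(X z - cX) ^ 2 - (Y z - cY) ^ 2‖ ∂γ := norm_integral_le_integral_norm _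
    _ ≤ ∫ z, 8 * mom γ ^ 2 * L * D * η ^ 3 * (1 + ‖z‖) ^ 3 ∂γ :=
        integral_mono_of_nonneg (Eventually.of_forall fun z => norm_nonneg _) i3
          (Eventually.of_forall fun z => hpt z)
    _ = 8 * mom γ ^ 2 * L * D * η ^ 3 * ∫ z, (1 + ‖z‖) ^ 3 ∂γ := integral_const_mul _ _
    _ ≤ 8 * mom γ ^ 2 * L * D * η ^ 3 * mom γ := by
        have := integral_pow_le_mom (k := 3) (by norm_num) hM
        exact mul_le_mul_of_nonneg_left this (by positivity)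
    _ = _ := by ring

/-- the constants -/
def tau0 (a b K : ℝ) : ℝ := a * b / (8 * (K + 1))
def cc2 (a b K : ℝ) : ℝ := tau0 a b K * (a * b) / 4
def R2 (γ : Measure E) (a b B L K : ℝ) : ℝ :=
  (3 * K * mom γ + 4 * (B + 1) * mom γ ^ 3 * L ^ 2) / cc2 a b K
def C1 (γ : Measure E) (a b B L K : ℝ) : ℝ :=
  8 * mom γ ^ 3 * L * (Real.sqrt (R2 γ a b B L K) + 2 * K)
def CC (γ : Measure E) (a b B L K : ℝ) : ℝ :=
  (B + 1) * C1 γ a b B L K + 2 * cE (B + 1) * T0 γ L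

/-- the comparison function for the shift `t` -/
def Wt (a b κ η : ℝ) (Vf Vg : E → ℝ) (x y t : E) (z : E) : ℝ :=
  a * Vf (x + b • t + η • z) + b * Vg (y - a • t + η • z) - κ

lemma lipη {B L K η : ℝ} (hη : 0 ≤ η) {V : E → ℝ} (hV : Reg B L K V) (x z z' : E) :
    |V (x + η • z) - V (x + η • z')| ≤ L * η * ‖z - z'‖ := by
  refine (hV.lip _ _).trans ?_
  have : x + η • z - (x + η • z') = η • (z - z') := by rw [smul_sub]; abel
  rw [this, norm_smul, Real.norm_eq_abs, abs_of_nonneg hη]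
  exact le_of_eq (by ring)

lemma Wt_lip {a b B L K κ η : ℝ} (ha : 0 < a) (hb : 0 < b) (hab : a + b = 1) (hη : 0 ≤ η)
    {Vf Vg : E → ℝ} (hf : Reg B L K Vf) (hg : Reg B L K Vg) (x y t z z' : E) :
    |Wt a b κ η Vf Vg x y t z - Wt a b κ η Vf Vg x y t z'| ≤ L * η * ‖z - z'‖ := by
  have e : Wt a b κ η Vf Vg x y t z - Wt a b κ η Vf Vg x y t z'
      = a * (Vf (x + b • t + η • z) - Vf (x + b • t + η • z'))
        + b * (Vg (y - a • t + η • z) - Vg (y - a • t + η • z')) := by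
    unfold Wt; ring
  rw [e]
  refine (abs_add_le _ _).trans ?_
  rw [abs_mul, abs_mul, abs_of_pos ha, abs_of_pos hb]
  have h1 := mul_le_mul_of_nonneg_left (lipη hη hf (x + b • t) z z') ha.le
  have h2 := mul_le_mul_of_nonneg_left (lipη hη hg (y - a • t) z z') hb.le
  calc _ ≤ a * (L * η * ‖z - z'‖) + b * (L * η * ‖z - z'‖) := add_le_add h1 h2
    _ = (a + b) * (L * η * ‖z - z'‖) := by ring
    _ = _ := by rw [hab, one_mul]

lemma Wt_bdd {a b B L K κ η : ℝ} (ha : 0 < a) (hb : 0 < b) (hab : a + b = 1)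
    (hκ : 0 ≤ κ) (hκ1 : κ ≤ 1)
    {Vf Vg : E → ℝ} (hf : Reg B L K Vf) (hg : Reg B L K Vg) (x y t z : E) :
    |Wt a b κ η Vf Vg x y t z| ≤ B + 1 := by
  have h1 := abs_le.1 (hf.bdd (x + b • t + η • z))
  have h2 := abs_le.1 (hg.bdd (y - a • t + η • z))
  have m1 := mul_le_mul_of_nonneg_left h1.1 ha.le
  have m2 := mul_le_mul_of_nonneg_left h1.2 ha.le
  have m3 := mul_le_mul_of_nonneg_left h2.1 hb.le
  have m4 := mul_le_mul_of_nonneg_left h2.2 hb.le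
  have e : a * B + b * B = B := by rw [← add_mul, hab, one_mul]
  rw [abs_le]
  unfold Wt
  constructor <;> linarith

lemma Wt_le {a b κ η : ℝ} (hab : a + b = 1)
    {Vf Vg Vh : E → ℝ} (h3 : ∀ x y, a * Vf x + b * Vg y - κ ≤ Vh (a • x + b • y))
    (x y t z : E) :
    Wt a b κ η Vf Vg x y t z ≤ Vh (a • x + b • y + η • z) := by
  have h := h3 (x + b • t + η • z) (y - a • t + η • z)
  have e : a • (x + b • t + η • z) + b • (y - a • t + η • z) = a • x + b • y + η • z := by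
    have e1 : a • η • z + b • η • z = η • z := by rw [← add_smul, hab, one_smul]
    have e2 : b • a • t = a • b • t := smul_comm b a t
    rw [smul_add, smul_add, smul_add, smul_sub, e2]
    calc _ = a • x + b • y + (a • η • z + b • η • z) := by abel
      _ = _ := by rw [e1]
  rw [e] at h
  exact h

lemma integrable_Phi_comp {w : E → ℝ} (hw : Measurable w) :
    Integrable (fun z => Phi (w z)) γ := by
  refine integrable_of_bound (B := 1) (measurable_Phi.comp hw) fun ω => ?_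
  rw [abs_of_pos (Phi_pos _)]; exact (Phi_lt_one _).le

/-- lower bound of the left side by the expansion of `W_t` -/
lemma lower_Wt {a b B L K κ η : ℝ} (ha : 0 < a) (hb : 0 < b) (hab : a + b = 1)
    (hL : 0 ≤ L) (hM : Integrable (fun z : E => (1 + ‖z‖) ^ 4) γ)
    (hκ : 0 ≤ κ) (hκ1 : κ ≤ 1) (hη : 0 ≤ η) (hη1 : η ≤ 1)
    (hs : cE (B + 1) ^ 2 * (T0 γ L * η ^ 3) ≤ 1)
    {Vf Vg Vh : E → ℝ} (hf : Reg B L K Vf) (hg : Reg B L K Vg)
    (hhB : ∀ x, |Vh x| ≤ B) (hhm : Measurable Vh)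
    (h3 : ∀ x y, a * Vf x + b * Vg y - κ ≤ Vh (a • x + b • y)) (x y t : E) :
    (∫ z, Wt a b κ η Vf Vg x y t z ∂γ)
      - (∫ z, Wt a b κ η Vf Vg x y t z ∂γ)
        * (∫ z, (Wt a b κ η Vf Vg x y t z - ∫ z', Wt a b κ η Vf Vg x y t z' ∂γ) ^ 2 ∂γ) / 2
      - cE (B + 1) * (T0 γ L * η ^ 3)
      ≤ PhiInv (∫ z, Phi (Vh (a • x + b • y + η • z)) ∂γ) := by
  have hWB := fun z => Wt_bdd (η := η) ha hb hab hκ hκ1 hf hg x y t z
  have hW' := fun z z' => Wt_lip (κ := κ) ha hb hab hη hf hg x y t z z'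
  have gW := (gexp (γ := γ) hL hη hη1 hM hWB hW' hs).1
  have hWc : Continuous (Wt a b κ η Vf Vg x y t) := continuous_of_lip hW'
  refine le_PhiInv_int (B := B) (hhm.comp (by fun_prop)) (fun z => hhB _) ?_
  refine gW.trans ?_
  refine integral_mono (integrable_Phi_comp hWc.measurable)
    (integrable_Phi_comp (hhm.comp (by fun_prop))) fun z => ?_
  exact strictMono_Phi.monotone (Wt_le hab h3 x y t z)

/-- upper bound -/
lemma upper_V {B L K η : ℝ}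
    (hL : 0 ≤ L) (hM : Integrable (fun z : E => (1 + ‖z‖) ^ 4) γ)
    (hη : 0 ≤ η) (hη1 : η ≤ 1)
    (hs : cE (B + 1) ^ 2 * (T0 γ L * η ^ 3) ≤ 1)
    {V : E → ℝ} (hV : Reg B L K V) (x : E) :
    PhiInv (∫ z, Phi (V (x + η • z)) ∂γ) ≤ (∫ z, V (x + η • z) ∂γ)
      - (∫ z, V (x + η • z) ∂γ)
        * (∫ z, (V (x + η • z) - ∫ z', V (x + η • z') ∂γ) ^ 2 ∂γ) / 2
      + cE (B + 1) * (T0 γ L * η ^ 3) := by
  have hXB : ∀ z, |V (x + η • z)| ≤ B + 1 := fun z => (hV.bdd _).trans (by linarith)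
  have hX' : ∀ z z', |V (x + η • z) - V (x + η • z')| ≤ L * η * ‖z - z'‖ :=
    fun z z' => lipη hη hV x z z'
  have hXc : Continuous (fun z => V (x + η • z)) := continuous_of_lip hX'
  exact PhiInv_int_le hXc.measurable hXB (gexp (γ := γ) hL hη hη1 hM hXB hX' hs).2

lemma Wt_mean {a b B L K κ η : ℝ} (hη : 0 ≤ η)
    {Vf Vg : E → ℝ} (hf : Reg B L K Vf) (hg : Reg B L K Vg) (x y t : E) :
    ∫ z, Wt a b κ η Vf Vg x y t z ∂γ
      = a * (∫ z, Vf (x + b • t + η • z) ∂γ) + b * (∫ z, Vg (y - a • t + η • z) ∂γ) - κ := by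
  have hXi : Integrable (fun z => Vf (x + b • t + η • z)) γ :=
    integrable_of_bound
      (continuous_of_lip (fun z z' => lipη hη hf (x + b • t) z z')).measurable
      (fun z => hf.bdd _)
  have hYi : Integrable (fun z => Vg (y - a • t + η • z)) γ :=
    integrable_of_bound
      (continuous_of_lip (fun z z' => lipη hη hg (y - a • t) z z')).measurable
      (fun z => hg.bdd _)
  have e1 : ∫ z, Wt a b κ η Vf Vg x y t z ∂γ
      = ∫ z, (a * Vf (x + b • t + η • z) + b * Vg (y - a • t + η • z)) ∂γ - ∫ _z, κ ∂γ :=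
    integral_sub ((hXi.const_mul a).add (hYi.const_mul b)) (integrable_const _)
  have e2 : ∫ z, (a * Vf (x + b • t + η • z) + b * Vg (y - a • t + η • z)) ∂γ
      = ∫ z, a * Vf (x + b • t + η • z) ∂γ + ∫ z, b * Vg (y - a • t + η • z) ∂γ :=
    integral_add (hXi.const_mul a) (hYi.const_mul b)
  rw [e1, e2, integral_const_mul, integral_const_mul]; simp

/-- first order comparison of `Vf (x + η z)` and `Vg (y + η z)` -/
lemma XY_bound {K R η : ℝ} (hK : 0 ≤ K) (hR : 0 ≤ R) (hη : 0 ≤ η)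
    {Vf Vg : E → ℝ} (x y : E) {qf qg : E →L[ℝ] ℝ}
    (hqf : ∀ u, |Vf (x + u) - Vf x - qf u| ≤ K * ‖u‖ ^ 2)
    (hqg : ∀ u, |Vg (y + u) - Vg y - qg u| ≤ K * ‖u‖ ^ 2)
    (hρ : ‖qf - qg‖ ≤ R * η) (z : E) :
    |Vf (x + η • z) - Vg (y + η • z) - (Vf x - Vg y)|
      ≤ (R + 2 * K) * η ^ 2 * (1 + ‖z‖) ^ 2 := by
  have h1 := hqf (η • z)
  have h2 := hqg (η • z)
  have e : Vf (x + η • z) - Vg (y + η • z) - (Vf x - Vg y)
      = (Vf (x + η • z) - Vf x - qf (η • z))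
      - (Vg (y + η • z) - Vg y - qg (η • z)) + (qf (η • z) - qg (η • z)) := by
    ring
  have h3' : |qf (η • z) - qg (η • z)| ≤ R * η * (η * ‖z‖) := by
    have : qf (η • z) - qg (η • z) = (qf - qg) (η • z) := rfl
    rw [this, ← Real.norm_eq_abs]
    refine ((qf - qg).le_opNorm _).trans ?_
    rw [norm_smul, Real.norm_eq_abs, abs_of_nonneg hη]
    exact mul_le_mul_of_nonneg_right hρ (by positivity)
  have hn : ‖η • z‖ ^ 2 = η ^ 2 * ‖z‖ ^ 2 := by
    rw [norm_smul, Real.norm_eq_abs, abs_of_nonneg hη]; ring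
  rw [hn] at h1 h2
  rw [e]
  have t1 := abs_add_le ((Vf (x + η • z) - Vf x - qf (η • z))
      - (Vg (y + η • z) - Vg y - qg (η • z))) (qf (η • z) - qg (η • z))
  have t2 := abs_sub (Vf (x + η • z) - Vf x - qf (η • z)) (Vg (y + η • z) - Vg y - qg (η • z))
  have hz := norm_nonneg z
  have n1 : ‖z‖ ≤ (1 + ‖z‖) ^ 2 := by nlinarith
  have n2 : ‖z‖ ^ 2 ≤ (1 + ‖z‖) ^ 2 := by nlinarith
  have n3 : R * η * (η * ‖z‖) ≤ R * η ^ 2 * (1 + ‖z‖) ^ 2 := by
    calc _ = R * η ^ 2 * ‖z‖ := by ring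
      _ ≤ _ := mul_le_mul_of_nonneg_left n1 (by positivity)
  have n4 : K * (η ^ 2 * ‖z‖ ^ 2) ≤ K * η ^ 2 * (1 + ‖z‖) ^ 2 := by
    calc _ = K * η ^ 2 * ‖z‖ ^ 2 := by ring
      _ ≤ _ := mul_le_mul_of_nonneg_left n2 (by positivity)
  calc _ ≤ K * (η ^ 2 * ‖z‖ ^ 2) + K * (η ^ 2 * ‖z‖ ^ 2) + R * η * (η * ‖z‖) := by linarith
    _ ≤ K * η ^ 2 * (1 + ‖z‖) ^ 2 + K * η ^ 2 * (1 + ‖z‖) ^ 2 + R * η ^ 2 * (1 + ‖z‖) ^ 2 := by
        linarith
    _ = _ := by ring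

lemma arith1 {a b B κ cX cY cW vX vY vW cst d1 PX PY PW : ℝ} (ha : 0 < a) (hb : 0 < b)
    (hab : a + b = 1) (hB : 0 ≤ B) (hκ : 0 ≤ κ) (hvX0 : 0 ≤ vX) (hd1 : 0 ≤ d1)
    (hcYB : |cY| ≤ B + 1) (hcWB : |cW| ≤ B + 1) (vXY : |vX - vY| ≤ d1) (vWX : |vW - vX| ≤ d1)
    (uX : PX ≤ cX - cX * vX / 2 + cst) (uY : PY ≤ cY - cY * vY / 2 + cst)
    (lW : cW - cW * vW / 2 - cst ≤ PW) (hW : cW = a * cX + b * cY - κ) :
    a * PX + b * PY - κ - ((B + 1) * d1 + 2 * cst) ≤ PW := by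
  have b1 : |cW * (vW - vX)| ≤ (B + 1) * d1 := by
    rw [abs_mul]; exact mul_le_mul hcWB vWX (abs_nonneg _) (by linarith)
  have b2 : |cY * (vX - vY)| ≤ (B + 1) * d1 := by
    rw [abs_mul]; exact mul_le_mul hcYB vXY (abs_nonneg _) (by linarith)
  rw [abs_le] at b1 b2
  have hκv : 0 ≤ κ * vX := mul_nonneg hκ hvX0
  have m1 := mul_le_mul_of_nonneg_left uX ha.le
  have m2 := mul_le_mul_of_nonneg_left uY hb.le
  have e4 : cW - cW * vW / 2 = cW - cW * vX / 2 - cW * (vW - vX) / 2 := by ring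
  have e5 : b * (cY - cY * vY / 2 + cst)
      = b * (cY - cY * vX / 2) + b * (cY * (vX - vY)) / 2 + b * cst := by ring
  have e6 : cW - cW * vX / 2 = a * (cX - cX * vX / 2) + b * (cY - cY * vX / 2) - κ
      + κ * vX / 2 := by rw [hW]; ring
  have e7 : b * (cY * (vX - vY)) ≤ (B + 1) * d1 := by
    have h0 : 0 ≤ (B + 1) * d1 := by positivity
    have hb1 : b ≤ 1 := by linarith
    calc b * (cY * (vX - vY)) ≤ b * ((B + 1) * d1) := mul_le_mul_of_nonneg_left b2.2 hb.le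
      _ ≤ 1 * ((B + 1) * d1) := mul_le_mul_of_nonneg_right hb1 h0
      _ = _ := one_mul _
  have e8 : a * (cX - cX * vX / 2 + cst) = a * (cX - cX * vX / 2) + a * cst := by ring
  have e9 : a * cst + b * cst = cst := by rw [← add_mul, hab, one_mul]
  linarith [b1.2]

lemma Wt_zero {a b κ η : ℝ} {Vf Vg : E → ℝ} (x y z : E) :
    Wt a b κ η Vf Vg x y 0 z = a * Vf (x + η • z) + b * Vg (y + η • z) - κ := by
  simp [Wt]

lemma step_case1 {a b B L K : ℝ} (ha : 0 < a) (hb : 0 < b) (hab : a + b = 1)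
    (hB : 0 ≤ B) (hL : 0 ≤ L) (hK : 0 ≤ K)
    (hM : Integrable (fun z : E => (1 + ‖z‖) ^ 4) γ)
    {Vf Vg Vh : E → ℝ} (hf : Reg B L K Vf) (hg : Reg B L K Vg)
    (hhB : ∀ x, |Vh x| ≤ B) (hhm : Measurable Vh)
    {κ : ℝ} (hκ : 0 ≤ κ) (hκ1 : κ ≤ 1)
    (h3 : ∀ x y, a * Vf x + b * Vg y - κ ≤ Vh (a • x + b • y))
    {η : ℝ} (hη : 0 ≤ η) (hη1 : η ≤ 1)
    (hs : cE (B + 1) ^ 2 * (T0 γ L * η ^ 3) ≤ 1) (x y : E)
    {qf qg : E →L[ℝ] ℝ} (hqf : ∀ u, |Vf (x + u) - Vf x - qf u| ≤ K * ‖u‖ ^ 2)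
    (hqg : ∀ u, |Vg (y + u) - Vg y - qg u| ≤ K * ‖u‖ ^ 2)
    {R : ℝ} (hR : 0 ≤ R) (hρ : ‖qf - qg‖ ≤ R * η) :
    a * PhiInv (∫ z, Phi (Vf (x + η • z)) ∂γ) + b * PhiInv (∫ z, Phi (Vg (y + η • z)) ∂γ) - κ
      - ((B + 1) * (8 * mom γ ^ 3 * L * (R + 2 * K)) + 2 * cE (B + 1) * T0 γ L) * η ^ 3
      ≤ PhiInv (∫ z, Phi (Vh (a • x + b • y + η • z)) ∂γ) := by
  have hm := one_le_mom hM
  have hb1 : b ≤ 1 := by linarith
  have hXB : ∀ z, |Vf (x + η • z)| ≤ B + 1 := fun z => (hf.bdd _).trans (by linarith)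
  have hYB : ∀ z, |Vg (y + η • z)| ≤ B + 1 := fun z => (hg.bdd _).trans (by linarith)
  have hWB := fun z => Wt_bdd (η := η) ha hb hab hκ hκ1 hf hg x y 0 z
  have hW' := fun z z' => Wt_lip (κ := κ) ha hb hab hη hf hg x y 0 z z'
  have hXY := XY_bound hK hR hη x y hqf hqg hρ
  have hWX : ∀ z, |Wt a b κ η Vf Vg x y 0 z - Vf (x + η • z) - (b * (Vg y - Vf x) - κ)|
      ≤ (R + 2 * K) * η ^ 2 * (1 + ‖z‖) ^ 2 := by
    intro z
    have e : Wt a b κ η Vf Vg x y 0 z - Vf (x + η • z) - (b * (Vg y - Vf x) - κ)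
        = -(b * (Vf (x + η • z) - Vg (y + η • z) - (Vf x - Vg y))) := by
      have : a = 1 - b := by linarith
      rw [Wt_zero, this]; ring
    rw [e, abs_neg, abs_mul, abs_of_pos hb]
    calc _ ≤ 1 * |Vf (x + η • z) - Vg (y + η • z) - (Vf x - Vg y)| :=
          mul_le_mul_of_nonneg_right hb1 (abs_nonneg _)
      _ ≤ _ := by rw [one_mul]; exact hXY z
  have hD : 0 ≤ R + 2 * K := by positivity
  have vXY := var_diff (γ := γ) hL hη hD hM hXB (fun z z' => lipη hη hf x z z') hYB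
    (fun z z' => lipη hη hg y z z') _ hXY
  have vWX := var_diff (γ := γ) hL hη hD hM hWB hW' hXB (fun z z' => lipη hη hf x z z') _ hWX
  have uX := upper_V (γ := γ) hL hM hη hη1 hs hf x
  have uY := upper_V (γ := γ) hL hM hη hη1 hs hg y
  have lW := lower_Wt (γ := γ) ha hb hab hL hM hκ hκ1 hη hη1 hs hf hg hhB hhm h3 x y 0
  have hWm := Wt_mean (γ := γ) (a := a) (b := b) (κ := κ) hη hf hg x y 0
  simp only [smul_zero, add_zero, sub_zero] at hWm
  have hfin := arith1 ha hb hab hB hκ (integral_nonneg fun z => sq_nonneg _) (by positivity)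
    (abs_integral_le_of_bound hYB) (abs_integral_le_of_bound hWB) vXY vWX uX uY lW hWm
  refine le_trans (le_of_eq ?_) hfin
  ring

end

end Vale.Agent.P262.EB
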