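import Vale.Agent.P262.EB.Step2

/-! # The step theorem, second case and conclusion -/

open MeasureTheory ProbabilityTheory Set Filter Topology

namespace Vale.Agent.P262.EB

noncomputable section

set_option linter.unusedSectionVars false

variable {E : Type*} [NormedAddCommGroup E] [NormedSpace ℝ E]
variable [MeasurableSpace E] [BorelSpace E] [SecondCountableTopology E]
  {γ : Measure E} [IsProbabilityMeasure γ]

lemma norm_add_sq_le (u v : E) : ‖u + v‖ ^ 2 ≤ 2 * ‖u‖ ^ 2 + 2 * ‖v‖ ^ 2 := by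
  have h := norm_add_le u v
  have h0 := norm_nonneg (u + v)
  nlinarith [sq_nonneg (‖u‖ - ‖v‖), norm_nonneg u, norm_nonneg v]

lemma shift_gain {K η s : ℝ} (hK : 0 ≤ K) {V : E → ℝ} {x : E} {q : E →L[ℝ] ℝ}
    (hq : ∀ u, |V (x + u) - V x - q u| ≤ K * ‖u‖ ^ 2) (t z : E) :
    V (x + η • z) + s * q t - K * (2 * s ^ 2 * ‖t‖ ^ 2 + 3 * (η ^ 2 * ‖z‖ ^ 2))
      ≤ V (x + s • t + η • z) := by
  have h1 := (abs_le.1 (hq (s • t + η • z))).1
  have h2 := (abs_le.1 (hq (η • z))).2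
  have e1 : x + (s • t + η • z) = x + s • t + η • z := by abel
  rw [e1] at h1
  have e2 : q (s • t + η • z) = s * q t + q (η • z) := by simp [map_add]
  rw [e2] at h1
  have n1 := norm_add_sq_le (s • t) (η • z)
  have n2 : ‖s • t‖ ^ 2 = s ^ 2 * ‖t‖ ^ 2 := by rw [norm_smul, mul_pow]; simp
  have n3 : ‖η • z‖ ^ 2 = η ^ 2 * ‖z‖ ^ 2 := by rw [norm_smul, mul_pow]; simp
  rw [n2, n3] at n1
  rw [n3] at h2
  have n4 := mul_le_mul_of_nonneg_left n1 hK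
  nlinarith

lemma Wt_gain {a b K κ η : ℝ} (ha : 0 < a) (hb : 0 < b) (hab : a + b = 1)
    (hK : 0 ≤ K) {Vf Vg : E → ℝ} {x y : E} {qf qg : E →L[ℝ] ℝ}
    (hqf : ∀ u, |Vf (x + u) - Vf x - qf u| ≤ K * ‖u‖ ^ 2)
    (hqg : ∀ u, |Vg (y + u) - Vg y - qg u| ≤ K * ‖u‖ ^ 2) (t z : E) :
    Wt a b κ η Vf Vg x y 0 z + (a * b * (qf t - qg t) - 2 * K * ‖t‖ ^ 2
      - 3 * K * η ^ 2 * (1 + ‖z‖) ^ 2) ≤ Wt a b κ η Vf Vg x y t z := by
  have g1 := mul_le_mul_of_nonneg_left (shift_gain (η := η) (s := b) hK hqf t z) ha.le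
  have g2 := mul_le_mul_of_nonneg_left (shift_gain (η := η) (s := -a) hK hqg t z) hb.le
  have e : y + -a • t + η • z = y - a • t + η • z := by rw [neg_smul]; abel
  rw [e] at g2
  rw [Wt_zero]
  unfold Wt
  have hz := norm_nonneg z
  have ht := norm_nonneg t
  have n2 : ‖z‖ ^ 2 ≤ (1 + ‖z‖) ^ 2 := by nlinarith
  have n3 : 3 * K * η ^ 2 * ‖z‖ ^ 2 ≤ 3 * K * η ^ 2 * (1 + ‖z‖) ^ 2 :=
    mul_le_mul_of_nonneg_left n2 (by positivity)
  have hab1 : a * b ≤ 1 := by nlinarith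
  have n4 : a * b * (2 * K * ‖t‖ ^ 2) ≤ 1 * (2 * K * ‖t‖ ^ 2) :=
    mul_le_mul_of_nonneg_right hab1 (by positivity)
  have e5 : a * (K * (2 * b ^ 2 * ‖t‖ ^ 2 + 3 * (η ^ 2 * ‖z‖ ^ 2)))
      + b * (K * (2 * (-a) ^ 2 * ‖t‖ ^ 2 + 3 * (η ^ 2 * ‖z‖ ^ 2)))
      = (a + b) * (a * b * (2 * K * ‖t‖ ^ 2)) + (a + b) * (3 * K * η ^ 2 * ‖z‖ ^ 2) := by ring
  rw [hab, one_mul, one_mul] at e5
  nlinarith

lemma arith2 {a b B κ G V cX cY cT vX vY vT cst PX PY PW : ℝ} (ha : 0 < a) (hb : 0 < b)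
    (hab : a + b = 1) (hvX0 : 0 ≤ vX) (hvY0 : 0 ≤ vY) (hvT0 : 0 ≤ vT)
    (hvX : vX ≤ V) (hvY : vY ≤ V) (hvT : vT ≤ V)
    (hcXB : |cX| ≤ B + 1) (hcYB : |cY| ≤ B + 1) (hcTB : |cT| ≤ B + 1)
    (uX : PX ≤ cX - cX * vX / 2 + cst) (uY : PY ≤ cY - cY * vY / 2 + cst)
    (lW : cT - cT * vT / 2 - cst ≤ PW) (hT : a * cX + b * cY - κ + G ≤ cT)
    (hG : (B + 1) * V ≤ G) :
    a * PX + b * PY - κ - 2 * cst ≤ PW := by
  have bd : ∀ c v : ℝ, |c| ≤ B + 1 → 0 ≤ v → v ≤ V → |c * v| ≤ (B + 1) * V := by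
    intro c v hc hv0 hv
    rw [abs_mul, abs_of_nonneg hv0]
    exact mul_le_mul hc hv hv0 (le_trans (abs_nonneg _) hc)
  have b1 := abs_le.1 (bd cX vX hcXB hvX0 hvX)
  have b2 := abs_le.1 (bd cY vY hcYB hvY0 hvY)
  have b3 := abs_le.1 (bd cT vT hcTB hvT0 hvT)
  have m1 : a * PX ≤ a * (cX + (B + 1) * V / 2 + cst) :=
    mul_le_mul_of_nonneg_left (by linarith [b1.1]) ha.le
  have m2 : b * PY ≤ b * (cY + (B + 1) * V / 2 + cst) :=
    mul_le_mul_of_nonneg_left (by linarith [b2.1]) hb.le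
  have e1 : a * (cX + (B + 1) * V / 2 + cst) + b * (cY + (B + 1) * V / 2 + cst)
      = a * cX + b * cY + (a + b) * ((B + 1) * V / 2 + cst) := by ring
  rw [hab, one_mul] at e1
  linarith [b3.2]

lemma step_case2 {a b B L K : ℝ} (ha : 0 < a) (hb : 0 < b) (hab : a + b = 1)
    (hL : 0 ≤ L) (hK : 0 ≤ K)
    (hM : Integrable (fun z : E => (1 + ‖z‖) ^ 4) γ)
    {Vf Vg Vh : E → ℝ} (hf : Reg B L K Vf) (hg : Reg B L K Vg)
    (hhB : ∀ x, |Vh x| ≤ B) (hhm : Measurable Vh)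
    {κ : ℝ} (hκ : 0 ≤ κ) (hκ1 : κ ≤ 1)
    (h3 : ∀ x y, a * Vf x + b * Vg y - κ ≤ Vh (a • x + b • y))
    {η : ℝ} (hη : 0 ≤ η) (hη1 : η ≤ 1)
    (hs : cE (B + 1) ^ 2 * (T0 γ L * η ^ 3) ≤ 1) (x y : E)
    {qf qg : E →L[ℝ] ℝ} (hqf : ∀ u, |Vf (x + u) - Vf x - qf u| ≤ K * ‖u‖ ^ 2)
    (hqg : ∀ u, |Vg (y + u) - Vg y - qg u| ≤ K * ‖u‖ ^ 2)
    (hρ0 : 0 < ‖qf - qg‖)
    (hρ : (3 * K * mom γ + 4 * (B + 1) * mom γ ^ 3 * L ^ 2) * η ^ 2
      ≤ cc2 a b K * ‖qf - qg‖ ^ 2) :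
    a * PhiInv (∫ z, Phi (Vf (x + η • z)) ∂γ) + b * PhiInv (∫ z, Phi (Vg (y + η • z)) ∂γ) - κ
      - 2 * (cE (B + 1) * (T0 γ L * η ^ 3))
      ≤ PhiInv (∫ z, Phi (Vh (a • x + b • y + η • z)) ∂γ) := by
  have hm := one_le_mom hM
  set r := ‖qf - qg‖ with hr
  -- a direction
  obtain ⟨t0, ht0, ht0'⟩ : ∃ t0 : E, ‖t0‖ ≤ 1 ∧ r / 2 ≤ qf t0 - qg t0 := by
    obtain ⟨u, hu, hu'⟩ := (qf - qg).exists_lt_apply_of_lt_opNorm (r := r / 2) (by linarith)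
    rcases le_total 0 ((qf - qg) u) with h | h
    · refine ⟨u, hu.le, ?_⟩
      rw [Real.norm_eq_abs, abs_of_nonneg h] at hu'
      exact hu'.le
    · refine ⟨-u, by rw [norm_neg]; exact hu.le, ?_⟩
      rw [Real.norm_eq_abs, abs_of_nonpos h] at hu'
      have : qf (-u) - qg (-u) = -((qf - qg) u) := by
        simp [map_neg]; ring
      rw [this]; exact hu'.le
  set τ := tau0 a b K with hτ
  have hτ0 : 0 < τ := by rw [hτ, tau0]; positivity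
  set t : E := (τ * r) • t0 with ht
  have hnt : ‖t‖ ^ 2 ≤ τ ^ 2 * r ^ 2 := by
    rw [ht, norm_smul, Real.norm_eq_abs, abs_of_nonneg (by positivity)]
    have : τ * r * ‖t0‖ ≤ τ * r * 1 := mul_le_mul_of_nonneg_left ht0 (by positivity)
    calc (τ * r * ‖t0‖) ^ 2 ≤ (τ * r * 1) ^ 2 := pow_le_pow_left₀ (by positivity) this 2
      _ = _ := by ring
  have hρt : τ * r * (r / 2) ≤ qf t - qg t := by
    rw [ht, map_smul, map_smul, smul_eq_mul, smul_eq_mul, ← mul_sub]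
    exact mul_le_mul_of_nonneg_left ht0' (by positivity)
  have hXB : ∀ z, |Vf (x + η • z)| ≤ B + 1 := fun z => (hf.bdd _).trans (by linarith)
  have hYB : ∀ z, |Vg (y + η • z)| ≤ B + 1 := fun z => (hg.bdd _).trans (by linarith)
  have hTB := fun z => Wt_bdd (η := η) ha hb hab hκ hκ1 hf hg x y t z
  have hT' := fun z z' => Wt_lip (κ := κ) ha hb hab hη hf hg x y t z z'
  have hWB := fun z => Wt_bdd (η := η) ha hb hab hκ hκ1 hf hg x y 0 z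
  have hW' := fun z z' => Wt_lip (κ := κ) ha hb hab hη hf hg x y 0 z z'
  have hTc : Continuous (Wt a b κ η Vf Vg x y t) := continuous_of_lip hT'
  have hWc : Continuous (Wt a b κ η Vf Vg x y 0) := continuous_of_lip hW'
  have uX := upper_V (γ := γ) hL hM hη hη1 hs hf x
  have uY := upper_V (γ := γ) hL hM hη hη1 hs hg y
  have lW := lower_Wt (γ := γ) ha hb hab hL hM hκ hκ1 hη hη1 hs hf hg hhB hhm h3 x y t
  have hWm := Wt_mean (γ := γ) (a := a) (b := b) (κ := κ) hη hf hg x y 0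
  simp only [smul_zero, add_zero, sub_zero] at hWm
  -- gain of the mean
  have hgain : (∫ z, Wt a b κ η Vf Vg x y 0 z ∂γ)
      + (a * b * (qf t - qg t) - 2 * K * ‖t‖ ^ 2 - 3 * K * η ^ 2 * mom γ)
      ≤ ∫ z, Wt a b κ η Vf Vg x y t z ∂γ := by
    have h2 := integrable_pow_of_le (k := 2) (by norm_num) hM
    have i1 : Integrable (Wt a b κ η Vf Vg x y 0) γ := integrable_of_bound hWc.measurable hWB
    have i2 : Integrable (fun z : E => a * b * (qf t - qg t) - 2 * K * ‖t‖ ^ 2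
        - 3 * K * η ^ 2 * (1 + ‖z‖) ^ 2) γ := (integrable_const _).sub (h2.const_mul _)
    have i3 : Integrable (Wt a b κ η Vf Vg x y t) γ := integrable_of_bound hTc.measurable hTB
    have h : ∫ z, (Wt a b κ η Vf Vg x y 0 z + (a * b * (qf t - qg t)
        - 2 * K * ‖t‖ ^ 2 - 3 * K * η ^ 2 * (1 + ‖z‖) ^ 2)) ∂γ
        ≤ ∫ z, Wt a b κ η Vf Vg x y t z ∂γ := integral_mono (i1.add i2) i3
      (fun z => Wt_gain (κ := κ) (η := η) ha hb hab hK hqf hqg t z)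
    have e1 : ∫ z, (Wt a b κ η Vf Vg x y 0 z + (a * b * (qf t - qg t)
        - 2 * K * ‖t‖ ^ 2 - 3 * K * η ^ 2 * (1 + ‖z‖) ^ 2)) ∂γ
        = (∫ z, Wt a b κ η Vf Vg x y 0 z ∂γ) + ∫ z : E, (a * b * (qf t - qg t)
        - 2 * K * ‖t‖ ^ 2 - 3 * K * η ^ 2 * (1 + ‖z‖) ^ 2) ∂γ := integral_add i1 i2
    have e2 : ∫ z : E, (a * b * (qf t - qg t) - 2 * K * ‖t‖ ^ 2
        - 3 * K * η ^ 2 * (1 + ‖z‖) ^ 2) ∂γ
        = (a * b * (qf t - qg t) - 2 * K * ‖t‖ ^ 2)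
          - 3 * K * η ^ 2 * ∫ z : E, (1 + ‖z‖) ^ 2 ∂γ := by
      rw [integral_sub (integrable_const _) (h2.const_mul _), integral_const_mul]; simp
    rw [e1, e2] at h
    have h4 := integral_pow_le_mom (γ := γ) (k := 2) (by norm_num) hM
    have h5 : 3 * K * η ^ 2 * ∫ z : E, (1 + ‖z‖) ^ 2 ∂γ ≤ 3 * K * η ^ 2 * mom γ :=
      mul_le_mul_of_nonneg_left h4 (by positivity)
    linarith
  have hG : (B + 1) * (4 * mom γ ^ 3 * L ^ 2 * η ^ 2)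
      ≤ a * b * (qf t - qg t) - 2 * K * ‖t‖ ^ 2 - 3 * K * η ^ 2 * mom γ := by
    have hab0 : 0 < a * b := mul_pos ha hb
    have k1 : a * b * (τ * r * (r / 2)) ≤ a * b * (qf t - qg t) :=
      mul_le_mul_of_nonneg_left hρt hab0.le
    have k2 : 2 * K * ‖t‖ ^ 2 ≤ 2 * K * (τ ^ 2 * r ^ 2) :=
      mul_le_mul_of_nonneg_left hnt (by positivity)
    have k3 : 8 * (K + 1) * τ = a * b := by
      rw [hτ, tau0]; field_simp
    have k4 : 2 * K * (τ ^ 2 * r ^ 2) ≤ a * b * (τ * r ^ 2) / 4 := by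
      have : 2 * K * τ ≤ a * b / 4 := by nlinarith
      calc 2 * K * (τ ^ 2 * r ^ 2) = (2 * K * τ) * (τ * r ^ 2) := by ring
        _ ≤ (a * b / 4) * (τ * r ^ 2) := mul_le_mul_of_nonneg_right this (by positivity)
        _ = _ := by ring
    have k5 : cc2 a b K * r ^ 2 = a * b * (τ * r ^ 2) / 4 := by
      unfold cc2; rw [← hτ]; ring
    rw [k5] at hρ
    nlinarith
  have := arith2 (V := 4 * mom γ ^ 3 * L ^ 2 * η ^ 2) ha hb hab
    (integral_nonneg fun z => sq_nonneg _) (integral_nonneg fun z => sq_nonneg _)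
    (integral_nonneg fun z => sq_nonneg _)
    (var_bound (γ := γ) hL hη hM hXB (fun z z' => lipη hη hf x z z'))
    (var_bound (γ := γ) hL hη hM hYB (fun z z' => lipη hη hg y z z'))
    (var_bound (γ := γ) hL hη hM hTB hT')
    (abs_integral_le_of_bound hXB) (abs_integral_le_of_bound hYB)
    (abs_integral_le_of_bound hTB) uX uY lW (κ := κ) (by rw [← hWm]; exact hgain) hG
  exact this

/-- **The step theorem.** -/
theorem step {a b B L K : ℝ} (ha : 0 < a) (hb : 0 < b) (hab : a + b = 1)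
    (hB : 0 ≤ B) (hL : 0 ≤ L) (hK : 0 ≤ K)
    (hM : Integrable (fun z : E => (1 + ‖z‖) ^ 4) γ) :
    ∃ C, 0 ≤ C ∧ ∃ η0, 0 < η0 ∧ ∀ Vf Vg Vh : E → ℝ, Reg B L K Vf → Reg B L K Vg →
      (∀ x, |Vh x| ≤ B) → Measurable Vh → ∀ κ : ℝ, 0 ≤ κ → κ ≤ 1 →
      (∀ x y, a * Vf x + b * Vg y - κ ≤ Vh (a • x + b • y)) →
      ∀ η, 0 ≤ η → η ≤ η0 → ∀ x y,
      a * PhiInv (∫ z, Phi (Vf (x + η • z)) ∂γ) + b * PhiInv (∫ z, Phi (Vg (y + η • z)) ∂γ)
        - (κ + C * η ^ 3) ≤ PhiInv (∫ z, Phi (Vh (a • x + b • y + η • z)) ∂γ) := by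
  have hm := one_le_mom hM
  have hcc : 0 < cc2 a b K := by unfold cc2 tau0; positivity
  set R2 := (3 * K * mom γ + 4 * (B + 1) * mom γ ^ 3 * L ^ 2) / cc2 a b K with hR2
  have hR20 : 0 ≤ R2 := by rw [hR2]; positivity
  have hT0 : 0 ≤ T0 γ L := by unfold T0; positivity
  have hcE := cE_pos (B + 1)
  set C := (B + 1) * (8 * mom γ ^ 3 * L * (Real.sqrt R2 + 2 * K)) + 2 * cE (B + 1) * T0 γ L
    with hC
  have hC0 : 0 ≤ C := by rw [hC]; positivity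
  refine ⟨C, hC0, min 1 (1 / (cE (B + 1) ^ 2 * T0 γ L + 1)), by positivity, ?_⟩
  intro Vf Vg Vh hf hg hhB hhm κ hκ hκ1 h3 η hη hη0 x y
  have hη1 : η ≤ 1 := hη0.trans (min_le_left _ _)
  have hs : cE (B + 1) ^ 2 * (T0 γ L * η ^ 3) ≤ 1 := by
    have h1 : η ≤ 1 / (cE (B + 1) ^ 2 * T0 γ L + 1) := hη0.trans (min_le_right _ _)
    have h2 : η ^ 3 ≤ η := by
      calc η ^ 3 = η * (η * η) := by ring
        _ ≤ η * (1 * 1) := by gcongr
        _ = η := by ring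
    have h3 : 0 ≤ cE (B + 1) ^ 2 * T0 γ L := by positivity
    rw [le_div_iff₀ (by positivity)] at h1
    calc cE (B + 1) ^ 2 * (T0 γ L * η ^ 3) = (cE (B + 1) ^ 2 * T0 γ L) * η ^ 3 := by ring
      _ ≤ (cE (B + 1) ^ 2 * T0 γ L) * η := mul_le_mul_of_nonneg_left h2 h3
      _ ≤ 1 := by nlinarith
  obtain ⟨pf, -, hpf⟩ := hf.der
  obtain ⟨pg, -, hpg⟩ := hg.der
  by_cases hr : ‖pf x - pg y‖ ^ 2 ≤ R2 * η ^ 2
  · have hρ : ‖pf x - pg y‖ ≤ Real.sqrt R2 * η := by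
      refine le_of_sq_le_sq ?_ (by positivity)
      rw [mul_pow, Real.sq_sqrt hR20]; exact hr
    have := step_case1 (γ := γ) ha hb hab hB hL hK hM hf hg hhB hhm hκ hκ1 h3 hη hη1 hs x y
      (hpf x) (hpg y) (Real.sqrt_nonneg R2) hρ
    linarith
  · rw [not_le] at hr
    have hr0 : 0 < ‖pf x - pg y‖ := by
      by_contra h
      have : ‖pf x - pg y‖ = 0 := le_antisymm (not_lt.1 h) (norm_nonneg _)
      rw [this] at hr
      have : 0 ≤ R2 * η ^ 2 := by positivity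
      linarith
    have hρ : (3 * K * mom γ + 4 * (B + 1) * mom γ ^ 3 * L ^ 2) * η ^ 2
        ≤ cc2 a b K * ‖pf x - pg y‖ ^ 2 := by
      have : cc2 a b K * (R2 * η ^ 2)
          = (3 * K * mom γ + 4 * (B + 1) * mom γ ^ 3 * L ^ 2) * η ^ 2 := by
        rw [hR2]; field_simp
      rw [← this]
      exact mul_le_mul_of_nonneg_left hr.le hcc.le
    have := step_case2 (γ := γ) ha hb hab hL hK hM hf hg hhB hhm hκ hκ1 h3 hη hη1 hs x y
      (hpf x) (hpg y) hr0 hρ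
    have h0 : 2 * (cE (B + 1) * (T0 γ L * η ^ 3)) ≤ C * η ^ 3 := by
      have h9 : 0 ≤ (B + 1) * (8 * mom γ ^ 3 * L * (Real.sqrt R2 + 2 * K)) := by positivity
      have h8 : 2 * cE (B + 1) * T0 γ L ≤ C := by rw [hC]; linarith
      calc _ = (2 * cE (B + 1) * T0 γ L) * η ^ 3 := by ring
        _ ≤ _ := mul_le_mul_of_nonneg_right h8 (by positivity)
    linarith

end

end Vale.Agent.P262.EB
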